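import Vale.Agent.P097.H407D.Open
import Vale.Agent.P097.D1G.Glue4
import Vale.Agent.P097.H323.D2.D2
import Vale.Agent.P097.H490.D3.D3
import Vale.Agent.P097.H970.D4.Fin
import Vale.Agent.P097.H104.ELL.Ell

/-! # P097 / H407D : all the inputs of the disc case -/

set_option linter.all false

namespace Vale.Agent.P097.H407D

open Vale.Agent.P097

theorem inputs : Inputs where
  d1O := D1G.d1O
  d1R := D1G.d1R
  lab := H896.D3.LAB_proof
  d2 := D2.d2
  d3 := H490.D3.d3
  d4 := H970.D4.D4_proof
  elln := H104.ELL.elln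

end Vale.Agent.P097.H407D
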