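import Vale.Agent.P097.H407D.DetS

/-! # P097 / H407D : tables near a disc, the sequence argument -/

set_option linter.all false

namespace Vale.Agent.P097.H407D

open Vale.Agent.P097 Vale.Agent.P097.FD Vale.Agent.P097.TOP Vale.Agent.P097.H407
open Vale.Agent.P097.Reg Vale.Agent.P097.Disc Filter
open scoped Topology ContDiff

lemma exists_scale {N K : ℕ} (hKN : K ≤ N) (hK : 1 ≤ K) (a : ℕ → ℝ) (ha : ∀ k, 0 ≤ a k) :
    ∃ δ : ℝ, 0 ≤ δ ∧ (∀ k, K ≤ k → k ≤ N → a k ≤ δ ^ k) ∧ ∃ k, K ≤ k ∧ k ≤ N ∧ a k = δ ^ k := by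
  obtain ⟨k0, hk0, hmax⟩ := Finset.exists_max_image (Finset.Icc K N)
    (fun k => (a k) ^ ((k : ℝ)⁻¹)) ⟨K, by simp [hKN]⟩
  rw [Finset.mem_Icc] at hk0
  refine ⟨(a k0) ^ ((k0 : ℝ)⁻¹), Real.rpow_nonneg (ha _) _, fun k h1 h2 => ?_, k0, hk0.1, hk0.2, ?_⟩
  · have h3 := hmax k (by rw [Finset.mem_Icc]; exact ⟨h1, h2⟩)
    have h4 := Real.rpow_inv_natCast_pow (ha k) (show k ≠ 0 by omega)
    rw [← h4]
    exact pow_le_pow_left₀ (Real.rpow_nonneg (ha _) _) h3 k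
  · exact (Real.rpow_inv_natCast_pow (ha k0) (show k0 ≠ 0 by omega)).symm

lemma exists_rel {N K : ℕ} (hKN : K ≤ N) (a d : ℕ → ℝ) (ha : ∀ k, 0 ≤ a k) (hd : ∀ k, 0 < d k) :
    ∃ μ : ℝ, 0 ≤ μ ∧ (∀ k, K ≤ k → k ≤ N → a k ≤ μ * d k) ∧
      ∃ k, K ≤ k ∧ k ≤ N ∧ a k = μ * d k := by
  obtain ⟨k0, hk0, hmax⟩ := Finset.exists_max_image (Finset.Icc K N)
    (fun k => a k / d k) ⟨K, by simp [hKN]⟩
  rw [Finset.mem_Icc] at hk0
  refine ⟨a k0 / d k0, div_nonneg (ha _) (hd _).le, fun k h1 h2 => ?_, k0, hk0.1, hk0.2, ?_⟩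
  · have h3 := hmax k (by rw [Finset.mem_Icc]; exact ⟨h1, h2⟩)
    exact (div_le_iff₀ (hd k)).1 h3
  · rw [div_mul_cancel₀ _ (hd k0).ne']

lemma diag (u : ℕ → ℕ → ℂ) (hb : ∀ k, ∃ C : ℝ, ∀ᶠ m in atTop, ‖u m k‖ ≤ C) :
    ∃ (c : ℕ → ℂ) (φ : ℕ → ℕ), StrictMono φ ∧
      ∀ k, Tendsto (fun m => u (φ m) k) atTop (𝓝 (c k)) := by
  have hb' : ∀ k, ∃ C : ℝ, ∀ m, ‖u m k‖ ≤ C := by
    intro k
    obtain ⟨C, hC⟩ := hb k
    obtain ⟨m0, hm0⟩ := eventually_atTop.1 hC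
    refine ⟨C ⊔ ∑ i ∈ Finset.range m0, ‖u i k‖, fun m => ?_⟩
    by_cases hm : m0 ≤ m
    · exact (hm0 m hm).trans le_sup_left
    · refine le_trans ?_ le_sup_right
      exact Finset.single_le_sum (f := fun i => ‖u i k‖) (fun _ _ => norm_nonneg _)
        (Finset.mem_range.2 (by omega))
  choose C hC using hb'
  have hK : IsCompact (Set.pi Set.univ fun k => Metric.closedBall (0 : ℂ) (C k)) :=
    isCompact_univ_pi fun k => isCompact_closedBall _ _
  obtain ⟨c, -, φ, hφ, hlim⟩ := hK.tendsto_subseq (x := u) fun m => by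
    intro k _
    rw [mem_closedBall_zero_iff]
    exact hC k m
  exact ⟨c, φ, hφ, fun k => tendsto_pi_nhds.1 hlim k⟩

theorem gs_mono {η β M : ℝ} {N0 N1 : ℕ} {h e : ℕ → ℝ → ℝ} {δ μ : ℕ → ℝ}
    (G : GS η β M N1 h e δ μ) (hN : N0 ≤ N1) : GS η β M N0 h e δ μ :=
  { G with bk := fun m k h1 h2 => G.bk m k h1 (h2.trans hN) }

theorem gs_comp {η β M : ℝ} {N0 : ℕ} {h e : ℕ → ℝ → ℝ} {δ μ : ℕ → ℝ}
    (G : GS η β M N0 h e δ μ) {φ : ℕ → ℕ} (hφ : Tendsto φ atTop atTop) :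
    GS η β M N0 (fun m => h (φ m)) (fun m => e (φ m)) (fun m => δ (φ m)) (fun m => μ (φ m)) where
  sh := fun m => G.sh _
  se := fun m => G.se _
  rh := fun m => G.rh _
  re := fun m => G.re _
  dp := fun m => G.dp _
  dl := G.dl.comp hφ
  mp := fun m => G.mp _
  ml := fun m => G.ml _
  e0 := fun m => G.e0 _
  e1 := fun m => G.e1 _
  eg := by
    obtain ⟨C0, h1, h2⟩ := G.eg
    exact ⟨C0, h1, fun m => h2 _⟩
  b0 := fun m => G.b0 _
  b1 := fun m => G.b1 _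
  bk := fun m => G.bk _

lemma cf_one (k : ℕ) : R4.cf (fun _ => (1 : ℝ)) k = if k = 0 then 1 else 0 := by
  unfold R4.cf
  have hpi : ((2 * Real.pi : ℝ) : ℂ) ≠ 0 := by exact_mod_cast Real.two_pi_pos.ne'
  have e : ∀ x : ℝ, (((1 : ℝ) : ℝ) : ℂ) * Complex.exp (-(Complex.I * ((k : ℤ) : ℂ) * x)) =
      Complex.exp (Complex.I * ((-(k : ℤ) : ℤ) : ℂ) * x) := by
    intro x
    rw [Complex.ofReal_one, one_mul]
    congr 1
    push_cast; ring
  simp only [e]
  rw [int_exp]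
  by_cases hk : k = 0
  · subst hk
    simp only [Nat.cast_zero, neg_zero, if_true]
    exact inv_mul_cancel₀ hpi
  · rw [if_neg (by omega), if_neg hk, mul_zero]

lemma sq_one {R : Type} [CommRing R] [IsDomain R] {x : R} (h : x ^ 2 = 1) : x = 1 ∨ x = -1 := by
  have : (x - 1) * (x + 1) = 0 := by linear_combination h
  rcases mul_eq_zero.1 this with h1 | h1
  · left; linear_combination h1
  · right; linear_combination h1

/-- a sequence of normalised tables converging to the disc gives a one-sided conic -/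
theorem abs_step (hO : D1O) (hLAB : LAB) (hD2 : D2) (hD3 : D3) {η β M : ℝ} (hη : 0 < η)
    (hη1 : η ≤ 1) (hβ : 0 < β) (hM : 1 ≤ M) : ∃ N1 : ℕ, ∀ N, N1 ≤ N → ∀ h : ℕ → ℝ → ℝ,
      (∀ m, StripTab β M (h m)) → (∀ m, Rsn (h m) η) → (∀ m, R4.cf (h m) 0 = 1) →
      (∀ m, R4.cf (h m) 1 = 0) → (∀ m, h m ≠ fun _ => 1) →
      (∀ m x, |h m x - 1| ≤ 1 / ((m : ℝ) + 1)) →
      ∃ (φ : ℕ → ℕ) (δ : ℕ → ℝ) (c : ℕ → ℂ) (b : ℂ), StrictMono φ ∧ (∀ m, 0 < δ m) ∧
        Tendsto δ atTop (𝓝 0) ∧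
        (∀ m, ∀ k : ℕ, 2 ≤ k → k ≤ N → ‖R4.cf (h (φ m)) k‖ ≤ δ m ^ k) ∧
        c 0 = 1 ∧ c 1 = 0 ∧ b ≠ 0 ∧
        (PowerSeries.mk c) ^ 2 = 1 + PowerSeries.C b * PowerSeries.X ^ 2 ∧
        ∀ k : ℕ, Tendsto (fun m => R4.cf (h (φ m)) k / (δ m : ℂ) ^ k) atTop (𝓝 (c k)) := by
  obtain ⟨NO, hNO⟩ := hO η β M hη hβ hM
  obtain ⟨ND, hND⟩ := det_strip hη hβ hM
  refine ⟨max 2 (max NO ND), fun N hN h hS hR h0 h1 hne hcl => ?_⟩
  have hN2 : 2 ≤ N := le_trans (le_max_left _ _) hN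
  have hNO2 : NO ≤ N := le_trans ((le_max_left _ _).trans (le_max_right _ _)) hN
  have hND2 : ND ≤ N := le_trans ((le_max_right _ _).trans (le_max_right _ _)) hN
  have hsm : ∀ m, ContDiff ℝ ∞ (h m) := fun m => (hS m).contDiff hβ
  -- the scales
  have hsc := fun m => exists_scale hN2 (by norm_num) (fun k => ‖R4.cf (h m) k‖)
    (fun k => norm_nonneg _)
  choose δ hδ0 hδk hδe using hsc
  have hδp : ∀ m, 0 < δ m := by
    intro m
    rcases (hδ0 m).eq_or_lt with h2 | h2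
    · exfalso
      refine hne m (hND _ _ (hS m) (stripTab_one hM) (hR m).cst (rsn_const 1 η).cst fun k hk => ?_)
      rw [cf_one]
      rcases Nat.lt_or_ge k 2 with h3 | h3
      · interval_cases k
        · simpa using h0 m
        · simpa using h1 m
      · have h4 := hδk m k h3 (hk.trans hND2)
        rw [← h2, zero_pow (by omega)] at h4
        rw [if_neg (by omega)]
        exact norm_le_zero_iff.1 h4
    · exact h2
  have hcfs : ∀ m, ∀ k : ℕ, 1 ≤ k → ‖R4.cf (h m) k‖ ≤ 1 / ((m : ℝ) + 1) := by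
    intro m k hk
    have h2 : R4.cf (h m) k = R4.cf (fun x => h m x - (fun _ => (1 : ℝ)) x) k := by
      rw [cf_sub (hsm m).continuous continuous_const, cf_one, if_neg (by omega), sub_zero]
    rw [h2]
    exact R4.cf_le (fun x => hcl m x) _
  have hδN : ∀ m, 1 ≤ m → δ m ^ N ≤ 1 / ((m : ℝ) + 1) := by
    intro m hm
    obtain ⟨k, hk1, hk2, hk3⟩ := hδe m
    have h2 := hcfs m k (by omega)
    have hlt : 1 / ((m : ℝ) + 1) < 1 := by
      rw [div_lt_one (by positivity)]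
      have : (1 : ℝ) ≤ m := by exact_mod_cast hm
      linarith
    have hδ1 : δ m ≤ 1 := by
      by_contra hcon
      push Not at hcon
      have := one_lt_pow₀ hcon (show k ≠ 0 by omega)
      linarith
    calc δ m ^ N ≤ δ m ^ k := pow_le_pow_of_le_one (hδ0 m) hδ1 hk2
      _ = ‖R4.cf (h m) k‖ := hk3.symm
      _ ≤ _ := h2
  have hδl : Tendsto δ atTop (𝓝 0) := by
    have h2 : Tendsto (fun m => δ m ^ N) atTop (𝓝 0) := by
      refine squeeze_zero' (Eventually.of_forall fun m => pow_nonneg (hδ0 m) _)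
        (eventually_atTop.2 ⟨1, fun m hm => hδN m hm⟩) tendsto_one_div_add_atTop_nhds_zero_nat
    rw [Metric.tendsto_atTop]
    intro ε hε
    obtain ⟨m0, hm0⟩ := (Metric.tendsto_atTop.1 h2) (ε ^ N) (pow_pos hε _)
    refine ⟨m0, fun m hm => ?_⟩
    have h3 := hm0 m hm
    rw [Real.dist_eq, sub_zero, abs_of_nonneg (pow_nonneg (hδ0 m) _)] at h3
    rw [Real.dist_eq, sub_zero, abs_of_nonneg (hδ0 m)]
    exact lt_of_pow_lt_pow_left₀ N hε.le h3
  have hGS : GS η β M N h (fun _ _ => 1) δ (fun _ => 1) :=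
    { sh := hS
      se := fun _ => stripTab_one hM
      rh := hR
      re := fun _ => rsn_const 1 η
      dp := hδp
      dl := hδl
      mp := fun _ => one_pos
      ml := fun _ => le_rfl
      e0 := fun _ => by simpa using cf_one 0
      e1 := fun _ => by simpa using cf_one 1
      eg := ⟨1, one_pos, fun m k hk => by
        rw [cf_one, if_neg (by omega), norm_zero]
        exact pow_nonneg (by rw [one_mul]; exact (hδp m).le) _⟩
      b0 := h0
      b1 := h1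
      bk := fun m k hk1 hk2 => by
        rw [cf_one, if_neg (by omega), sub_zero, one_mul]
        exact hδk m k hk1 hk2 }
  obtain ⟨hbd, hlimO⟩ := hNO h δ (gs_mono hGS hNO2)
  -- limits
  obtain ⟨c, φ, hφ, hc⟩ := diag (fun m k => R4.cf (h m) k / (δ m : ℂ) ^ k) (fun k => by
    rcases Nat.lt_or_ge k 2 with h3 | h3
    · refine ⟨1, Eventually.of_forall fun m => ?_⟩
      interval_cases k
      · simp [h0 m]
      · simp [h1 m]
    · obtain ⟨C, hC⟩ := hbd k h3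
      refine ⟨C, hC.mono fun m hm => ?_⟩
      rw [norm_div, norm_pow, Complex.norm_real, Real.norm_of_nonneg (hδ0 m),
        div_le_iff₀ (pow_pos (hδp m) _)]
      exact hm)
  have hφt := hφ.tendsto_atTop
  have hc0 : c 0 = 1 := by
    refine tendsto_nhds_unique (hc 0) ?_
    have : (fun m => R4.cf (h (φ m)) ((0 : ℕ) : ℤ) / (δ (φ m) : ℂ) ^ 0) = fun _ => 1 := by
      ext m; simp [h0 (φ m)]
    rw [this]
    exact tendsto_const_nhds
  have hc1 : c 1 = 0 := by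
    refine tendsto_nhds_unique (hc 1) ?_
    have : (fun m => R4.cf (h (φ m)) ((1 : ℕ) : ℤ) / (δ (φ m) : ℂ) ^ 1) = fun _ => 0 := by
      ext m; simp [h1 (φ m)]
    rw [this]
    exact tendsto_const_nhds
  obtain ⟨Q, hQ, -, -⟩ := hLAB ℂ c hc0 hc1
  have hGS' : GS η β M NO (fun m => h (φ m)) (fun _ _ => 1) (fun m => δ (φ m)) (fun _ => 1) :=
    gs_comp (gs_mono hGS hNO2) hφt
  have hOrb := (hNO _ _ hGS').2 c hc
  have hpi := Real.pi_pos
  obtain ⟨Sf, hSf⟩ := hD2 c Q (η / Real.pi) hc0 hc1 hQ (by positivity)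
    (by rw [div_le_iff₀ hpi]; linarith [Real.pi_gt_three]) (fun p n hp hn hlt r => by
      obtain ⟨n', rfl⟩ : ∃ n', n = n' + 1 := ⟨n - 1, by omega⟩
      have hn0 : (0 : ℝ) < ((n' + 1 : ℕ) : ℝ) := by positivity
      have hlt2 : (p : ℝ) / ((n' + 1 : ℕ) : ℝ) < 1 / 2 := by
        refine lt_of_lt_of_le hlt ?_
        rw [div_le_iff₀ hpi]; linarith [Real.pi_gt_three]
      have h2p : 2 * p < n' + 1 := by
        rw [div_lt_iff₀ hn0] at hlt2
        have : (2 : ℝ) * p < ((n' + 1 : ℕ) : ℝ) := by linarith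
        exact_mod_cast this
      refine hOrb n' p hp h2p ?_ r
      unfold aa
      rw [lt_div_iff₀ hpi] at hlt
      have e : Real.pi * p / ((n' : ℝ) + 1) = (p : ℝ) / ((n' + 1 : ℕ) : ℝ) * Real.pi := by
        push_cast; ring
      rw [e]
      exact hlt)
  obtain ⟨b, hb⟩ := hD3 c Q Sf hc0 hc1 hQ hSf
  have hb0 : b ≠ 0 := by
    rintro rfl
    -- all the limits vanish
    have h2 : (PowerSeries.mk c) ^ 2 = 1 := by rw [hb]; simp
    have h3 : ∀ k, 1 ≤ k → c k = 0 := by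
      intro k hk
      rcases sq_one h2 with h4 | h4
      · have := congrArg (PowerSeries.coeff k) h4
        rw [PowerSeries.coeff_mk, PowerSeries.coeff_one, if_neg (by omega)] at this
        exact this
      · have := congrArg (PowerSeries.coeff k) h4
        rw [PowerSeries.coeff_mk, map_neg, PowerSeries.coeff_one, if_neg (by omega), neg_zero] at this
        exact this
    have h4 : ∀ᶠ m in atTop, ∀ k ∈ Finset.Icc 2 N,
        ‖R4.cf (h (φ m)) k / (δ (φ m) : ℂ) ^ k‖ < 1 := by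
      rw [eventually_all_finset]
      intro k hk
      rw [Finset.mem_Icc] at hk
      have h5 := (hc k).norm
      rw [h3 k (by omega), norm_zero] at h5
      exact h5.eventually (gt_mem_nhds one_pos)
    obtain ⟨m, hm⟩ := h4.exists
    obtain ⟨k, hk1, hk2, hk3⟩ := hδe (φ m)
    have h5 := hm k (by rw [Finset.mem_Icc]; exact ⟨hk1, hk2⟩)
    rw [norm_div, norm_pow, Complex.norm_real, Real.norm_of_nonneg (hδ0 _), hk3,
      div_self (pow_pos (hδp _) _).ne'] at h5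
    exact lt_irrefl _ h5
  exact ⟨φ, fun m => δ (φ m), c, b, hφ, fun m => hδp _, hδl.comp hφt, fun m k => hδk (φ m) k,
    hc0, hc1, hb0, hb, hc⟩

end Vale.Agent.P097.H407D
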