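import Vale.Agent.P097.H407D.Norm

/-! # P097 / H407D : finite determinacy in a class with a uniform strip -/

set_option linter.all false

namespace Vale.Agent.P097.H407D

open Vale.Agent.P097 Vale.Agent.P097.FD Vale.Agent.P097.TOP Vale.Agent.P097.H407
open Vale.Agent.P097.Reg Filter
open scoped Topology ContDiff

lemma cf_sub {f g : ℝ → ℝ} (hf : Continuous f) (hg : Continuous g) (m : ℤ) :
    R4.cf (fun x => f x - g x) m = R4.cf f m - R4.cf g m := by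
  unfold R4.cf
  have e : ∀ x : ℝ, ((f x - g x : ℝ) : ℂ) * Complex.exp (-(Complex.I * m * x)) =
      (f x : ℂ) * Complex.exp (-(Complex.I * m * x)) -
        (g x : ℂ) * Complex.exp (-(Complex.I * m * x)) := by
    intro x; push_cast; ring
  simp only [e]
  rw [intervalIntegral.integral_sub, mul_sub]
  · apply Continuous.intervalIntegrable; fun_prop
  · apply Continuous.intervalIntegrable; fun_prop

/-- the sup norm of the difference is controlled by finitely many modes -/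
theorem sup_le {η β M : ℝ} (hη : 0 < η) (hβ : 0 < β) (hM : 1 ≤ M) : ∃ N : ℕ, ∀ h₁ h₂ : ℝ → ℝ,
    StripTab β M h₁ → StripTab β M h₂ → CstAll h₁ η → CstAll h₂ η → ∀ x, |h₁ x - h₂ x| ≤
      4 * ∑ m ∈ Finset.range (N + 1), ‖R4.cf h₁ (m : ℤ) - R4.cf h₂ (m : ℤ)‖ := by
  obtain ⟨β', C, hβ', hC, HF⟩ := stF_r η β M hη hβ hM
  have hsum : Summable fun m : ℤ => Real.exp (-(β' * |(m : ℝ)|)) := summable_exp_abs hβ'
  have hsum2 : Summable fun m : ℤ => C * Real.exp (-(β' * |(m : ℝ)|)) := hsum.mul_left C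
  obtain ⟨s0, hs0⟩ := Filter.eventually_atTop.1
    ((tendsto_tsum_compl_atTop_zero fun m : ℤ => C * Real.exp (-(β' * |(m : ℝ)|))).eventually
      (gt_mem_nhds (by norm_num : (0 : ℝ) < 1 / 2)))
  obtain ⟨N, hN⟩ : ∃ N : ℕ, s0 ⊆ Finset.Icc (-(N : ℤ)) N := by
    refine ⟨∑ m ∈ s0, m.natAbs, fun m hm => ?_⟩
    have h1 : m.natAbs ≤ ∑ m ∈ s0, m.natAbs := Finset.single_le_sum
      (f := fun m : ℤ => m.natAbs) (fun _ _ => Nat.zero_le _) hm
    rw [Finset.mem_Icc]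
    omega
  have htail := hs0 _ hN
  refine ⟨N, fun h₁ h₂ T1 T2 R1 R2 => ?_⟩
  have s1 := T1.contDiff hβ
  have s2 := T2.contDiff hβ
  set g : ℝ → ℝ := fun x => h₁ x - h₂ x with hg
  have hgs : ContDiff ℝ ∞ g := s1.sub s2
  have hgp : ∀ x, g (x + 2 * Real.pi) = g x := fun x => by
    show h₁ (x + 2 * Real.pi) - h₂ (x + 2 * Real.pi) = h₁ x - h₂ x
    rw [T1.1, T2.1]
  obtain ⟨x0, -, hmax⟩ := (isCompact_Icc (a := (0 : ℝ)) (b := 2 * Real.pi)).exists_isMaxOn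
    (Set.nonempty_Icc.2 Real.two_pi_pos.le) (hgs.continuous.abs).continuousOn
  have hb : ∀ x, |g x| ≤ |g x0| := by
    intro x
    have hper : Function.Periodic g (2 * Real.pi) := hgp
    obtain ⟨y, hy, hxy⟩ := hper.exists_mem_Ico₀ Real.two_pi_pos x
    rw [hxy]
    exact hmax ⟨hy.1, hy.2.le⟩
  set b : ℝ := |g x0| with hbd
  obtain ⟨G, g1, g2, g3⟩ := HF h₁ h₂ T1 T2 R1 R2 b hb
  have hcf : ∀ m : ℤ, ‖R4.cf g m‖ ≤ C * b * Real.exp (-(β' * |(m : ℝ)|)) := fun m =>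
    cf_strip hβ' g1 g2 (h := g) (fun x => by rw [g3]; push_cast [hg]; rfl) hgp m
  have hcs : Summable fun m : ℤ => ‖R4.cf g m‖ := by
    have := R4.cf_summable hgs hgp 0
    simpa using this
  have hinv := R4.inversion hgs.continuous hgp hcs x0
  have hexp : ∀ m : ℤ, ‖R4.cf g m * Complex.exp (Complex.I * m * x0)‖ = ‖R4.cf g m‖ := by
    intro m
    rw [norm_mul]
    have : ‖Complex.exp (Complex.I * m * x0)‖ = 1 := by
      rw [show Complex.I * m * x0 = ((m * x0 : ℝ) : ℂ) * Complex.I by push_cast; ring,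
        Complex.norm_exp_ofReal_mul_I]
    rw [this, mul_one]
  have hle : b ≤ ∑' m : ℤ, ‖R4.cf g m‖ := by
    have h1 := norm_tsum_le_tsum_norm (f := fun m : ℤ => R4.cf g m * Complex.exp (Complex.I * m * x0))
      (hcs.congr fun m => (hexp m).symm)
    rw [hinv.tsum_eq] at h1
    rw [Complex.norm_real, Real.norm_eq_abs] at h1
    exact h1.trans (le_of_eq (tsum_congr fun m => hexp m))
  have hsplit := (hcs.sum_add_tsum_compl (s := Finset.Icc (-(N : ℤ)) N))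
  have hb0 : 0 ≤ b := abs_nonneg _
  have ht2 : ∑' m : ((Finset.Icc (-(N : ℤ)) N : Finset ℤ) : Set ℤ)ᶜ.Elem, ‖R4.cf g m‖ ≤ b * (1 / 2) := by
    have hc1 : Summable fun m : ((Finset.Icc (-(N : ℤ)) N : Finset ℤ) : Set ℤ)ᶜ.Elem =>
        C * Real.exp (-(β' * |((m : ℤ) : ℝ)|)) := hsum2.subtype _
    calc ∑' m : ((Finset.Icc (-(N : ℤ)) N : Finset ℤ) : Set ℤ)ᶜ.Elem, ‖R4.cf g m‖
        ≤ ∑' m : ((Finset.Icc (-(N : ℤ)) N : Finset ℤ) : Set ℤ)ᶜ.Elem,
          b * (C * Real.exp (-(β' * |((m : ℤ) : ℝ)|))) := by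
          refine Summable.tsum_le_tsum (fun m => ?_) (hcs.subtype _) (hc1.mul_left b)
          have := hcf m
          linarith
      _ = b * ∑' m : ((Finset.Icc (-(N : ℤ)) N : Finset ℤ) : Set ℤ)ᶜ.Elem,
          C * Real.exp (-(β' * |((m : ℤ) : ℝ)|)) := tsum_mul_left
      _ ≤ b * (1 / 2) := by
          refine mul_le_mul_of_nonneg_left (le_of_lt ?_) hb0
          exact htail
  have hfin := sum_Icc_le (f := fun m => ‖R4.cf g m‖) (fun m => norm_nonneg _)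
    (fun m => by rw [R4.cf_conj]; exact RCLike.norm_conj _) N
  have hfin2 : ∑ m ∈ Finset.range (N + 1), ‖R4.cf g (m : ℤ)‖ =
      ∑ m ∈ Finset.range (N + 1), ‖R4.cf h₁ (m : ℤ) - R4.cf h₂ (m : ℤ)‖ :=
    Finset.sum_congr rfl fun m _ => by rw [hg, cf_sub s1.continuous s2.continuous]
  intro x
  have h6 := hb x
  have h7 : b ≤ 4 * ∑ m ∈ Finset.range (N + 1), ‖R4.cf h₁ (m : ℤ) - R4.cf h₂ (m : ℤ)‖ := by
    rw [← hfin2]
    rw [← hsplit] at hle
    linarith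
  exact h6.trans h7

theorem det_strip {η β M : ℝ} (hη : 0 < η) (hβ : 0 < β) (hM : 1 ≤ M) : ∃ N : ℕ, ∀ h₁ h₂ : ℝ → ℝ,
    StripTab β M h₁ → StripTab β M h₂ → CstAll h₁ η → CstAll h₂ η →
      (∀ k : ℕ, k ≤ N → R4.cf h₁ k = R4.cf h₂ k) → h₁ = h₂ := by
  obtain ⟨N, hN⟩ := sup_le hη hβ hM
  refine ⟨N, fun h₁ h₂ T1 T2 R1 R2 hk => ?_⟩
  ext x
  have h1 := hN h₁ h₂ T1 T2 R1 R2 x
  have h2 : ∑ m ∈ Finset.range (N + 1), ‖R4.cf h₁ (m : ℤ) - R4.cf h₂ (m : ℤ)‖ = 0 :=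
    Finset.sum_eq_zero fun m hm => by
      rw [hk m (by rw [Finset.mem_range] at hm; omega), sub_self, norm_zero]
  rw [h2, mul_zero] at h1
  linarith [abs_nonpos_iff.1 h1]

end Vale.Agent.P097.H407D
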