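import Vale.Agent.P097.H407D.All

/-! # P097 / H407D : the uniform gap between the ellipses and the other integrable tables -/

set_option linter.all false

namespace Vale.Agent.P097.H407D

open Vale.Agent.P097 Vale.Agent.P097.FD Vale.Agent.P097.TOP Vale.Agent.P097.H407
open Vale.Agent.P097.Reg Vale.Agent.P097.Disc Filter
open scoped Topology ContDiff

lemma width_ge {h : ℝ → ℝ} (hs : ContDiff ℝ ∞ h) {c : ℝ}
    (hc : ∀ x, c ≤ h x + deriv (deriv h) x) (x : ℝ) : 2 * c ≤ h x + h (x + Real.pi) := by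
  have hd : ∀ t, HasDerivAt (fun t => deriv h (x + t) * Real.sin t - h (x + t) * Real.cos t +
      c * Real.cos t) ((h (x + t) + deriv (deriv h) (x + t) - c) * Real.sin t) t := by
    intro t
    have h1 : HasDerivAt (fun t => h (x + t)) (deriv h (x + t)) t := by
      have := ((hs.differentiable (by simp) (x + t)).hasDerivAt).comp_const_add x t
      exact this
    have hs2 : ContDiff ℝ ∞ (deriv h) := hs.iterate_deriv 1
    have h2 : HasDerivAt (fun t => deriv h (x + t)) (deriv (deriv h) (x + t)) t :=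
      ((hs2.differentiable (by simp) (x + t)).hasDerivAt).comp_const_add x t
    refine (((h2.mul (Real.hasDerivAt_sin t)).sub (h1.mul (Real.hasDerivAt_cos t))).add
      ((Real.hasDerivAt_cos t).const_mul c)).congr_deriv ?_
    ring
  have hmono : MonotoneOn (fun t => deriv h (x + t) * Real.sin t - h (x + t) * Real.cos t +
      c * Real.cos t) (Set.Icc 0 Real.pi) := by
    apply monotoneOn_of_deriv_nonneg (convex_Icc _ _)
    · exact fun t _ => (hd t).continuousAt.continuousWithinAt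
    · exact fun t _ => (hd t).differentiableAt.differentiableWithinAt
    · intro t ht
      rw [interior_Icc] at ht
      rw [(hd t).deriv]
      exact mul_nonneg (by linarith [hc (x + t)]) (Real.sin_nonneg_of_mem_Icc ⟨ht.1.le, ht.2.le⟩)
  have := hmono (Set.left_mem_Icc.2 Real.pi_pos.le) (Set.right_mem_Icc.2 Real.pi_pos.le)
    Real.pi_pos.le
  simp at this
  linarith

lemma width_EF (v : Fin 5 → ℝ) (x : ℝ) : EF v x + EF v (x + Real.pi) = 2 * √(EQ v x) := by
  unfold EF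
  rw [Real.cos_add_pi, Real.sin_add_pi, EQ_pi]
  ring

/-- the compact set of parameters -/
def KK (c R : ℝ) : Set (Fin 5 → ℝ) := {v | c ≤ v 2 - er v ∧ ‖v‖ ≤ R}

lemma isCompact_KK (c R : ℝ) : IsCompact (KK c R) := by
  apply (isCompact_closedBall (0 : Fin 5 → ℝ) R).of_isClosed_subset
  · apply IsClosed.inter
    · exact isClosed_le continuous_const ((continuous_apply 2).sub continuous_er)
    · exact isClosed_le continuous_norm continuous_const
  · intro v hv
    rw [mem_closedBall_zero_iff]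
    exact hv.2

lemma KK_sub {c R : ℝ} (hc : 0 < c) : KK c R ⊆ EP := by
  intro v hv
  rw [mem_EP]
  linarith [hv.1]

lemma mem_KK {h : ℝ → ℝ} (hs : ContDiff ℝ ∞ h) {c A κ : ℝ} (hc : 0 < c)
    (hr : ∀ x, c ≤ h x + deriv (deriv h) x) (hA : ∀ x, |h x| ≤ A) (hκ : κ ≤ c / 2)
    {v : Fin 5 → ℝ} (hv : v ∈ EP) (hcl : ∀ x, |h x - EF v x| ≤ κ) :
    v ∈ KK ((c / 2) ^ 2) ((A + c) ^ 2 + (A + c)) := by
  have hA0 : 0 ≤ A := (abs_nonneg _).trans (hA 0)
  have hb : ∀ x, |EF v x| ≤ A + c := by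
    intro x
    have h1 := hcl x
    have h2 := hA x
    rw [abs_le] at h1 h2 ⊢
    constructor <;> linarith
  have hlow : ∀ x, (c / 2) ^ 2 ≤ EQ v x := by
    intro x
    have h1 := width_ge hs hr x
    have h2 := width_EF v x
    have h3 := hcl x
    have h4 := hcl (x + Real.pi)
    rw [abs_le] at h3 h4
    have h5 : c / 2 ≤ √(EQ v x) := by linarith
    calc (c / 2) ^ 2 ≤ √(EQ v x) ^ 2 := pow_le_pow_left₀ (by positivity) h5 2
      _ = EQ v x := Real.sq_sqrt (EQ_pos hv x).le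
  have hup : ∀ x, EQ v x ≤ (A + c) ^ 2 := by
    intro x
    have h2 := width_EF v x
    have h3 := abs_le.1 (hb x)
    have h4 := abs_le.1 (hb (x + Real.pi))
    have h5 : √(EQ v x) ≤ A + c := by linarith
    calc EQ v x = √(EQ v x) ^ 2 := (Real.sq_sqrt (EQ_pos hv x).le).symm
      _ ≤ (A + c) ^ 2 := pow_le_pow_left₀ (Real.sqrt_nonneg _) h5 2
  have h2 : v 2 ≤ (A + c) ^ 2 := by
    have a := hup 0
    have b := hup (Real.pi / 2)
    unfold EQ at a b
    rw [show 2 * (Real.pi / 2) = Real.pi by ring] at b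
    simp at a b
    linarith
  have her : er v ≤ (A + c) ^ 2 := by
    rw [mem_EP] at hv
    linarith
  have h3 : |v 3| ≤ er v := by
    rw [← Real.sqrt_sq_eq_abs]
    exact Real.sqrt_le_sqrt (by nlinarith [sq_nonneg (v 4)])
  have h4 : |v 4| ≤ er v := by
    rw [← Real.sqrt_sq_eq_abs]
    exact Real.sqrt_le_sqrt (by nlinarith [sq_nonneg (v 3)])
  have h0 : |v 0| ≤ A + c := by
    rw [← pa_EF v]
    unfold pa
    have a := abs_le.1 (hb 0)
    have b := abs_le.1 (hb Real.pi)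
    rw [abs_le]
    constructor <;> linarith
  have h1 : |v 1| ≤ A + c := by
    rw [← pb_EF v]
    unfold pb
    have a := abs_le.1 (hb (Real.pi / 2))
    have b := abs_le.1 (hb (3 * (Real.pi / 2)))
    rw [abs_le]
    constructor <;> linarith
  have h20 : 0 < v 2 := by
    rw [mem_EP] at hv
    exact lt_of_le_of_lt (er_nonneg _) hv
  constructor
  · obtain ⟨x, hx⟩ := exists_min v
    rw [← hx]
    exact hlow x
  · rw [pi_norm_le_iff_of_nonneg (by positivity)]
    intro i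
    rw [Real.norm_eq_abs]
    fin_cases i
    · show |v 0| ≤ _
      nlinarith [sq_nonneg (A + c)]
    · show |v 1| ≤ _
      nlinarith [sq_nonneg (A + c)]
    · show |v 2| ≤ _
      rw [abs_of_pos h20]
      nlinarith [sq_nonneg (A + c)]
    · show |v 3| ≤ _
      nlinarith [sq_nonneg (A + c)]
    · show |v 4| ≤ _
      nlinarith [sq_nonneg (A + c)]

lemma EF_lip {c R : ℝ} (hc : 0 < c) {v w : Fin 5 → ℝ} (hv : v ∈ KK (c ^ 2) R)
    (hw : w ∈ KK (c ^ 2) R) (x : ℝ) : |EF v x - EF w x| ≤ (2 + 3 / c) * ‖v - w‖ := by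
  have hn : ∀ i, |v i - w i| ≤ ‖v - w‖ := fun i => by
    have := norm_le_pi_norm (v - w) i
    rwa [Real.norm_eq_abs] at this
  have hlow : ∀ {u : Fin 5 → ℝ}, u ∈ KK (c ^ 2) R → c ≤ √(EQ u x) := by
    intro u hu
    rw [← Real.sqrt_sq hc.le]
    exact Real.sqrt_le_sqrt (hu.1.trans (H407.EQ_ge u x))
  have hvp : 0 ≤ EQ v x := (EQ_pos (KK_sub (by positivity) hv) x).le
  have hwp : 0 ≤ EQ w x := (EQ_pos (KK_sub (by positivity) hw) x).le
  have e : (√(EQ v x) - √(EQ w x)) * (√(EQ v x) + √(EQ w x)) = EQ v x - EQ w x := by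
    have a := Real.sq_sqrt hvp
    have b := Real.sq_sqrt hwp
    linear_combination a - b
  have hq : |EQ v x - EQ w x| ≤ 3 * ‖v - w‖ := by
    unfold EQ
    have e2 : v 2 + v 3 * Real.cos (2 * x) + v 4 * Real.sin (2 * x) -
        (w 2 + w 3 * Real.cos (2 * x) + w 4 * Real.sin (2 * x)) =
        (v 2 - w 2) + (v 3 - w 3) * Real.cos (2 * x) + (v 4 - w 4) * Real.sin (2 * x) := by ring
    rw [e2]
    have a1 : |(v 3 - w 3) * Real.cos (2 * x)| ≤ ‖v - w‖ * 1 := by
      rw [abs_mul]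
      exact mul_le_mul (hn 3) (Real.abs_cos_le_one _) (abs_nonneg _) (norm_nonneg _)
    have a2 : |(v 4 - w 4) * Real.sin (2 * x)| ≤ ‖v - w‖ * 1 := by
      rw [abs_mul]
      exact mul_le_mul (hn 4) (Real.abs_sin_le_one _) (abs_nonneg _) (norm_nonneg _)
    have b1 := abs_add_le ((v 2 - w 2) + (v 3 - w 3) * Real.cos (2 * x)) ((v 4 - w 4) * Real.sin (2 * x))
    have b2 := abs_add_le (v 2 - w 2) ((v 3 - w 3) * Real.cos (2 * x))
    linarith [hn 2]
  have hs : |√(EQ v x) - √(EQ w x)| ≤ 3 / c * ‖v - w‖ := by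
    have h1 : |√(EQ v x) - √(EQ w x)| * (√(EQ v x) + √(EQ w x)) ≤ 3 * ‖v - w‖ := by
      have h2 : 0 ≤ √(EQ v x) + √(EQ w x) := by positivity
      rw [← abs_of_nonneg h2, ← abs_mul, e]
      exact hq
    have h3 : |√(EQ v x) - √(EQ w x)| * c ≤ 3 * ‖v - w‖ := by
      refine le_trans (mul_le_mul_of_nonneg_left ?_ (abs_nonneg _)) h1
      linarith [hlow hv, Real.sqrt_nonneg (EQ w x)]
    rw [div_mul_eq_mul_div, le_div_iff₀ hc]
    exact h3
  have e3 : EF v x - EF w x = (v 0 - w 0) * Real.cos x + (v 1 - w 1) * Real.sin x +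
      (√(EQ v x) - √(EQ w x)) := by
    unfold EF; ring
  rw [e3]
  have a1 : |(v 0 - w 0) * Real.cos x| ≤ ‖v - w‖ * 1 := by
    rw [abs_mul]
    exact mul_le_mul (hn 0) (Real.abs_cos_le_one _) (abs_nonneg _) (norm_nonneg _)
  have a2 : |(v 1 - w 1) * Real.sin x| ≤ ‖v - w‖ * 1 := by
    rw [abs_mul]
    exact mul_le_mul (hn 1) (Real.abs_sin_le_one _) (abs_nonneg _) (norm_nonneg _)
  have b1 := abs_add_le ((v 0 - w 0) * Real.cos x + (v 1 - w 1) * Real.sin x)
    (√(EQ v x) - √(EQ w x))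
  have b2 := abs_add_le ((v 0 - w 0) * Real.cos x) ((v 1 - w 1) * Real.sin x)
  have e4 : (2 + 3 / c) * ‖v - w‖ = ‖v - w‖ * 1 + ‖v - w‖ * 1 + 3 / c * ‖v - w‖ := by ring
  rw [e4]
  linarith

/-- the uniform gap: among the tables of a bounded class which are integrable near the boundary,
the ellipses are at a positive distance from all the other ones -/
theorem gap (I : Inputs) {η c : ℝ} (A : ℕ → ℝ) (hη : 0 < η) (hc : 0 < c) :
    ∃ (k : ℕ) (κ : ℝ), 0 < κ ∧ ∀ h : ℝ → ℝ, SmoothTable h → NInt h η → Bdk k A c h →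
      ∀ v ∈ EP, (∀ x, |h x - EF v x| ≤ κ) → ∃ w ∈ EP, h = EF w := by
  obtain ⟨k, β, M, hβ, hM, HR⟩ := stR_fin_r η c A hη hc
  refine ⟨k, ?_⟩
  by_contra hcon
  push Not at hcon
  have hex : ∀ m : ℕ, ∃ (h : ℝ → ℝ) (v : Fin 5 → ℝ), StripTab β M h ∧ Rsn h η ∧
      v ∈ KK ((c / 2) ^ 2) ((A 0 + c) ^ 2 + (A 0 + c)) ∧
      (∀ x, |h x - EF v x| ≤ 1 / ((m : ℝ) + 1)) ∧ ∀ w ∈ EP, h ≠ EF w := by
    intro m
    obtain ⟨h, a1, a2, a3, v, hv, a4, a5⟩ := hcon (min (c / 2) (1 / ((m : ℝ) + 1))) (by positivity)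
    have hR := rsn_of_nint a1 hη a2
    refine ⟨h, v, HR h a1.1 a1.2.1 a3.1 a3.2 hR.cst, hR, ?_, fun x => (a4 x).trans (min_le_right _ _),
      a5⟩
    refine mem_KK a1.1 hc a3.1 (fun x => ?_) (min_le_left _ _) hv a4
    have := a3.2 0 (Nat.zero_le _) x
    rwa [iteratedDeriv_zero] at this
  choose h v hS hR hK hcl hnot using hex
  obtain ⟨w, hw, φ, hφ, hlim⟩ := (isCompact_KK _ _).tendsto_subseq hK
  have hwE : w ∈ EP := KK_sub (by positivity) hw
  obtain ⟨κ, hκ, H⟩ := open_all I hwE hη hβ hM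
  have h1 : Tendsto (fun m => 1 / (((φ m : ℕ) : ℝ) + 1) + (2 + 3 / (c / 2)) * ‖v (φ m) - w‖) atTop
      (𝓝 0) := by
    have a := (tendsto_one_div_add_atTop_nhds_zero_nat (𝕜 := ℝ)).comp hφ.tendsto_atTop
    have b : Tendsto (fun m => ‖v (φ m) - w‖) atTop (𝓝 0) := by
      have := (hlim.sub_const w).norm
      simpa using this
    have := a.add (b.const_mul (2 + 3 / (c / 2)))
    simpa using this
  obtain ⟨m, hm⟩ := (h1.eventually (gt_mem_nhds hκ)).exists
  obtain ⟨w', hw', he⟩ := H (h (φ m)) (hS _) (hR _) (fun x => by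
    have a := hcl (φ m) x
    have b := EF_lip (by positivity : 0 < c / 2) (hK (φ m)) hw x
    have e : h (φ m) x - EF w x = (h (φ m) x - EF (v (φ m)) x) + (EF (v (φ m)) x - EF w x) := by ring
    rw [e]
    exact lt_of_le_of_lt ((abs_add_le _ _).trans (add_le_add a b)) hm)
  exact hnot _ w' hw' he

end Vale.Agent.P097.H407D
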