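import Vale.Agent.P097.H407D.Gap

/-! # P097 / H407D : final statements -/

set_option linter.all false

namespace Vale.Agent.P097.H407D

open Vale.Agent.P097 Vale.Agent.P097.FD Vale.Agent.P097.TOP Vale.Agent.P097.H407
open Filter
open scoped Topology

theorem main_all : (∀ a b φ p q : ℝ, 0 < a → 0 < b → ∀ η : ℝ, 0 < η → ∃ (k : ℕ) (κ : ℝ), 0 < κ ∧
      ∀ h : ℝ → ℝ, SmoothTable h → (Collar h η ∨ Leaves h η) →
        CkClose k κ h (ellipse a b φ p q) → IsEllipse h) ∧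
    (∀ (η c : ℝ) (A : ℕ → ℝ), 0 < η → 0 < c → ∃ (k : ℕ) (κ : ℝ), 0 < κ ∧ ∀ h : ℝ → ℝ,
      SmoothTable h → (Collar h η ∨ Leaves h η) → Bdk k A c h → ∀ e : ℝ → ℝ, IsEllipse e →
        (∀ x, |h x - e x| ≤ κ) → IsEllipse h) ∧
    (∀ (X : Type) [TopologicalSpace X] [PreconnectedSpace X] (H : X → ℝ → ℝ),
      (∀ x, SmoothTable (H x)) →
      (∀ x₀, ∃ η : ℝ, 0 < η ∧ ∀ᶠ x in 𝓝 x₀, Collar (H x) η ∨ Leaves (H x) η) →
      (∀ (i : ℕ) (x₀ : X),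
        TendstoUniformly (fun x => iteratedDeriv i (H x)) (iteratedDeriv i (H x₀)) (𝓝 x₀)) →
      (∃ x, IsEllipse (H x)) → ∀ x, IsEllipse (H x)) ∧
    (∀ (I : Set ℝ) (H : ℝ → ℝ → ℝ) (t₀ η : ℝ), IsPreconnected I → t₀ ∈ I → 0 < η →
      (∀ t ∈ I, SmoothTable (H t)) → (∀ s, AnalyticOnNhd ℝ (fun t => H t s) I) →
      (∀ i : ℕ, TendstoUniformly (fun t => iteratedDeriv i (H t)) (iteratedDeriv i (H t₀))
        (𝓝[I] t₀)) →
      IsEllipse (H t₀) →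
      (∃ᶠ t in 𝓝[I \ {t₀}] t₀, Collar (H t) η ∨ Leaves (H t) η) → ∀ t ∈ I, IsEllipse (H t)) := by
  refine ⟨?_, ?_, ?_, ?_⟩
  · intro a b φ p q ha hb η hη
    obtain ⟨v, hv, he⟩ := ellipse_eq ha hb φ p q
    obtain ⟨k, κ, hκ, H⟩ := local_Ck_all inputs hv hη
    refine ⟨k, κ, hκ, fun h hs hc hcl => ?_⟩
    rw [isEllipse_iff]
    rw [he.1] at hcl
    exact H h hs hc hcl
  · intro η c A hη hc
    obtain ⟨k, κ, hκ, H⟩ := gap inputs A hη hc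
    refine ⟨k, κ, hκ, fun h hs hn hb e he hcl => ?_⟩
    rw [isEllipse_iff] at he ⊢
    obtain ⟨v, hv, rfl⟩ := he
    exact H h hs hn hb v hv hcl
  · intro X _ _ H hT hη hc ⟨x0, he⟩ x
    rw [isEllipse_iff] at he ⊢
    exact connected_all inputs H hT hη hc x0 he x
  · intro I H t0 η hI ht0 hη hT ha hc he hcol t ht
    rw [isEllipse_iff] at he ⊢
    exact analytic_family_all inputs hI H hT ha ht0 he hc hη hcol t ht

end Vale.Agent.P097.H407D
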