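import Vale.Agent.P097.H407D.Rel

/-! # P097 / H407D : tables near a disc -/

set_option linter.all false

namespace Vale.Agent.P097.H407D

open Vale.Agent.P097 Vale.Agent.P097.FD Vale.Agent.P097.TOP Vale.Agent.P097.H407
open Vale.Agent.P097.Reg Vale.Agent.P097.Disc Filter
open scoped Topology ContDiff

lemma one_EF : ∃ w ∈ EP, (fun _ : ℝ => (1 : ℝ)) = EF w := by
  refine ⟨![0, 0, 1, 0, 0], ?_, ?_⟩
  · rw [mem_EP]
    unfold er
    simp
  · ext x
    unfold EF EQ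
    simp

/-- the inputs of the disc case -/
structure Inputs : Prop where
  d1O : D1O
  d1R : D1R
  lab : LAB
  d2 : D2
  d3 : D3
  d4 : D4
  elln : ELLN

/-- a uniform strip class for two classes -/
lemma strip_up {β β' M M' : ℝ} {h : ℝ → ℝ} (hβ : β' ≤ β) (hM1 : 1 ≤ M) (hM : M ≤ M')
    (S1 : StripTab β M h) : StripTab β' M' h :=
  StripTab.mono (by linarith) hβ hM S1 (S1.rad_pos hM1)

/-- normalised tables near the disc -/
theorem disc_core (I : Inputs) {η β M : ℝ} (hη : 0 < η) (hβ : 0 < β) (hM : 1 ≤ M) :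
    ∃ κ : ℝ, 0 < κ ∧ ∀ h : ℝ → ℝ, StripTab β M h → Rsn h η → R4.cf h 0 = 1 → R4.cf h 1 = 0 →
      (∀ x, |h x - 1| ≤ κ) → ∃ w ∈ EP, h = EF w := by
  obtain ⟨η₁, β₁, M₁, κ₁, C₀, E, hη₁, hβ₁, hM₁, hκ₁, hC₀, hE, hElim⟩ := I.elln
  set η' : ℝ := min (min η η₁) 1 with hη'
  set β' : ℝ := min β β₁ with hβ'
  set M' : ℝ := max M M₁ with hM'
  have hη'0 : 0 < η' := lt_min (lt_min hη hη₁) one_pos
  have hη'1 : η' ≤ 1 := min_le_right _ _
  have hη'2 : η' ≤ η := (min_le_left _ _).trans (min_le_left _ _)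
  have hη'3 : η' ≤ η₁ := (min_le_left _ _).trans (min_le_right _ _)
  have hβ'0 : 0 < β' := lt_min hβ hβ₁
  have hM'1 : 1 ≤ M' := hM.trans (le_max_left _ _)
  obtain ⟨NA, hNA⟩ := abs_step I.d1O I.lab I.d2 I.d3 hη'0 hη'1 hβ'0 hM'1
  obtain ⟨NR, hNR⟩ := rel_step I.d1R I.d4 hη'0 hη'1 hβ'0 hM'1
  obtain ⟨ND, hND⟩ := det_strip hη'0 hβ'0 hM'1
  obtain ⟨N, hN⟩ : ∃ N, N = max (max NA NR) (max ND 3) := ⟨_, rfl⟩
  have n1 : NA ≤ N := by rw [hN]; exact (le_max_left _ _).trans (le_max_left _ _)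
  have n2 : NR ≤ N := by rw [hN]; exact (le_max_right _ _).trans (le_max_left _ _)
  have n3 : ND ≤ N := by rw [hN]; exact (le_max_left _ _).trans (le_max_right _ _)
  have n4 : 3 ≤ N := by rw [hN]; exact (le_max_right _ _).trans (le_max_right _ _)
  by_contra hcon
  push Not at hcon
  have hex : ∀ m : ℕ, ∃ h : ℝ → ℝ, StripTab β M h ∧ Rsn h η ∧ R4.cf h 0 = 1 ∧ R4.cf h 1 = 0 ∧
      (∀ x, |h x - 1| ≤ 1 / ((m : ℝ) + 1)) ∧ ∀ w ∈ EP, h ≠ EF w := by
    intro m
    obtain ⟨h, a1, a2, a3, a4, a5, a6⟩ := hcon (1 / ((m : ℝ) + 1)) (by positivity)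
    exact ⟨h, a1, a2, a3, a4, a5, a6⟩
  choose h hS hR h0 h1 hcl hnot using hex
  have hS' : ∀ m, StripTab β' M' (h m) := fun m =>
    strip_up (min_le_left _ _) hM (le_max_left _ _) (hS m)
  have hR' : ∀ m, Rsn (h m) η' := fun m => (hR m).mono hη'2
  obtain ⟨φ, δ, c, b, hφ, hδ, hδl, hδk, hc0, hc1, hb, hc, hlim⟩ := hNA N n1 h hS' hR' h0 h1
    (fun m h2 => by
      obtain ⟨w, hw, hw2⟩ := one_EF
      exact hnot m w hw (h2.trans hw2)) hcl
  -- the ellipses
  obtain ⟨a, ha⟩ : ∃ a : ℕ → ℂ, a = fun m => R4.cf (h (φ m)) 2 := ⟨_, rfl⟩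
  have hak : ∀ m, ‖a m‖ ≤ δ m ^ 2 := fun m => by
    rw [ha]; exact hδk m 2 le_rfl (by omega)
  have halim : Tendsto (fun m => a m / (δ m : ℂ) ^ 2) atTop (𝓝 (c 2)) := by
    rw [ha]; exact hlim 2
  have hek := hElim a δ c b hδ hδl halim hc0 hc
  have ha0 : ∀ᶠ m in atTop, ‖a m‖ ≤ κ₁ := by
    have h2 : Tendsto (fun m => δ m ^ 2) atTop (𝓝 0) := by
      have := hδl.pow 2
      simpa using this
    filter_upwards [h2.eventually (gt_mem_nhds hκ₁)] with m hm
    exact (hak m).trans hm.le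
  -- the relative sizes
  have hrs := fun m => exists_rel n4 (fun k => ‖R4.cf (h (φ m)) k - R4.cf (E (a m)) k‖)
    (fun k => δ m ^ k) (fun k => norm_nonneg _) (fun k => pow_pos (hδ m) _)
  choose μ hμ0 hμk hμe using hrs
  have hμl : Tendsto μ atTop (𝓝 0) := by
    have h2 : ∀ k : ℕ, Tendsto (fun m => ‖R4.cf (h (φ m)) k - R4.cf (E (a m)) k‖ / δ m ^ k) atTop
        (𝓝 0) := by
      intro k
      have h3 := ((hlim k).sub (hek k)).norm
      rw [sub_self, norm_zero] at h3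
      refine h3.congr fun m => ?_
      rw [← sub_div, norm_div, norm_pow, Complex.norm_real, Real.norm_of_nonneg (hδ m).le]
    rw [Metric.tendsto_atTop]
    intro ε hε
    have h3 : ∀ᶠ m in atTop, ∀ k ∈ Finset.Icc 3 N,
        ‖R4.cf (h (φ m)) k - R4.cf (E (a m)) k‖ / δ m ^ k < ε := by
      rw [eventually_all_finset]
      intro k _
      exact (h2 k).eventually (gt_mem_nhds hε)
    obtain ⟨m0, hm0⟩ := eventually_atTop.1 h3
    refine ⟨m0, fun m hm => ?_⟩
    rw [Real.dist_eq, sub_zero, abs_of_nonneg (hμ0 m)]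
    obtain ⟨k, hk1, hk2, hk3⟩ := hμe m
    have h4 := hm0 m hm k (by rw [Finset.mem_Icc]; exact ⟨hk1, hk2⟩)
    rw [hk3, mul_div_cancel_right₀ _ (pow_pos (hδ m) _).ne'] at h4
    exact h4
  obtain ⟨m1, hm1⟩ := eventually_atTop.1
    (ha0.and (hμl.eventually (gt_mem_nhds (zero_lt_one' ℝ))))
  -- shifted sequences
  have hsh : Tendsto (fun m => m + m1) atTop atTop := tendsto_add_atTop_nat m1
  have hEm := fun m => hE (a (m + m1)) (hm1 (m + m1) (by omega)).1
  have hμp : ∀ m, 0 < μ (m + m1) := by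
    intro m
    rcases (hμ0 (m + m1)).eq_or_lt with h2 | h2
    · exfalso
      obtain ⟨⟨w, hw, hw2⟩, e1, e2, e3, e4, e5, e6⟩ := hEm m
      refine hnot (φ (m + m1)) w hw ?_
      rw [← hw2]
      refine hND _ _ (hS' _) (strip_up (min_le_right _ _) hM₁ (le_max_right _ _) e1) (hR' _).cst
        ((e2.mono hη'3).cst) fun k hk => ?_
      rcases Nat.lt_or_ge k 3 with h3 | h3
      · interval_cases k
        · rw [Nat.cast_zero, h0, e3]
        · rw [Nat.cast_one, h1, e4]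
        · rw [Nat.cast_ofNat, e5, ha]
      · have h4 := hμk (m + m1) k h3 (hk.trans n3)
        rw [← h2, zero_mul] at h4
        exact sub_eq_zero.1 (norm_le_zero_iff.1 h4)
    · exact h2
  have hGS : GS η' β' M' N (fun m => h (φ (m + m1))) (fun m => E (a (m + m1)))
      (fun m => δ (m + m1)) (fun m => μ (m + m1)) :=
    { sh := fun m => hS' _
      se := fun m => strip_up (min_le_right _ _) hM₁ (le_max_right _ _) (hEm m).2.1
      rh := fun m => hR' _
      re := fun m => (hEm m).2.2.1.mono hη'3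
      dp := fun m => hδ _
      dl := hδl.comp hsh
      mp := hμp
      ml := fun m => (hm1 (m + m1) (by omega)).2.le
      e0 := fun m => (hEm m).2.2.2.1
      e1 := fun m => (hEm m).2.2.2.2.1
      eg := by
        refine ⟨C₀, hC₀, fun m k hk => ?_⟩
        refine ((hEm m).2.2.2.2.2.2 k hk).trans ?_
        refine pow_le_pow_left₀ (by positivity) ?_ k
        refine mul_le_mul_of_nonneg_left ?_ hC₀.le
        rw [Real.sqrt_le_left (hδ _).le]
        exact hak _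
      b0 := fun m => h0 _
      b1 := fun m => h1 _
      bk := fun m k hk1 hk2 => by
        rcases Nat.lt_or_ge k 3 with h3 | h3
        · have : k = 2 := by omega
          subst this
          have e5 := (hEm m).2.2.2.2.2.1
          have e6 : R4.cf (h (φ (m + m1))) ((2 : ℕ) : ℤ) - R4.cf (E (a (m + m1))) ((2 : ℕ) : ℤ) = 0 := by
            rw [Nat.cast_ofNat, e5, ha, sub_self]
          rw [e6, norm_zero]
          exact mul_nonneg (hμ0 _) (pow_nonneg (hδ _).le _)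
        · exact hμk (m + m1) k h3 hk2 }
  refine hNR N n2 _ _ _ _ c b hGS (hμl.comp hsh) (fun m => ?_) (fun m => hμe (m + m1)) hc0 hc1 hb hc
    (fun k => (hek k).comp hsh)
  rw [(hEm m).2.2.2.2.2.1, ha]

/-- tables near the unit disc -/
theorem disc_near (I : Inputs) {η β M : ℝ} (hη : 0 < η) (hβ : 0 < β) (hM : 1 ≤ M) :
    ∃ κ : ℝ, 0 < κ ∧ ∀ h : ℝ → ℝ, StripTab β M h → Rsn h η →
      (∀ x, |h x - 1| ≤ κ) → ∃ w ∈ EP, h = EF w := by
  obtain ⟨κ, hκ, H⟩ := disc_core I hη (lt_min hβ one_pos) (by linarith : (1 : ℝ) ≤ 10 * M)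
  refine ⟨min (1 / 4) (κ / 20), by positivity, fun h hS hR hcl => ?_⟩
  have hs := hS.contDiff hβ
  have hc1 : ∀ x, |h x - 1| ≤ 1 / 4 := fun x => (hcl x).trans (min_le_left _ _)
  have hc2 : ∀ x, |h x - 1| ≤ κ / 20 := fun x => (hcl x).trans (min_le_right _ _)
  have hk : ∀ (B : ℝ), (∀ x, |h x - 1| ≤ B) → ‖R4.cf h 0 - 1‖ ≤ B ∧ ‖R4.cf h 1‖ ≤ B := by
    intro B hB
    have c0 := cf_one 0
    have c1 := cf_one 1
    simp only [Nat.cast_zero, Nat.cast_one, if_true, one_ne_zero, if_false] at c0 c1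
    constructor
    · rw [← c0, ← cf_sub hs.continuous continuous_const]
      exact R4.cf_le hB _
    · rw [← sub_zero (R4.cf h 1), ← c1, ← cf_sub hs.continuous continuous_const]
      exact R4.cf_le hB _
  obtain ⟨r, hr⟩ : ∃ r, r = (R4.cf h 0).re := ⟨_, rfl⟩
  have hrB : ∀ B, (∀ x, |h x - 1| ≤ B) → |r - 1| ≤ B := by
    intro B hB
    have := (hk B hB).1
    rw [cf_zero_real, ← hr, ← Complex.ofReal_one, ← Complex.ofReal_sub, Complex.norm_real] at this
    exact this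
  have r1 := abs_le.1 (hrB _ hc1)
  have r0 : 0 < r := by linarith
  have hri : r⁻¹ ≤ 2 := by
    rw [inv_le_comm₀ r0 (by norm_num)]; linarith
  have hri2 : 1 / 2 ≤ r⁻¹ := by
    rw [one_div, inv_le_inv₀ (by norm_num) r0]; linarith
  obtain ⟨p, hp⟩ : ∃ p, p = -(2 * (R4.cf h 1).re / r) := ⟨_, rfl⟩
  obtain ⟨q, hq⟩ : ∃ q, q = 2 * (R4.cf h 1).im / r := ⟨_, rfl⟩
  have hpB : ∀ B, (∀ x, |h x - 1| ≤ B) → |p| ≤ 4 * B ∧ |q| ≤ 4 * B := by
    intro B hB
    have h1 := (hk B hB).2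
    have hB0 : 0 ≤ B := (abs_nonneg _).trans (hB 0)
    have a1 := (Complex.abs_re_le_norm (R4.cf h 1)).trans h1
    have a2 := (Complex.abs_im_le_norm (R4.cf h 1)).trans h1
    constructor
    · rw [hp, abs_neg, abs_div, abs_mul, abs_two, abs_of_pos r0, div_eq_mul_inv]
      nlinarith [abs_nonneg (R4.cf h 1).re, inv_pos.2 r0]
    · rw [hq, abs_div, abs_mul, abs_two, abs_of_pos r0, div_eq_mul_inv]
      nlinarith [abs_nonneg (R4.cf h 1).im, inv_pos.2 r0]
  have hn : nrm h = afn r⁻¹ p q h := by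
    unfold nrm
    rw [← hr, ← hp, ← hq]
  have hr' : (R4.cf h 0).re ≠ 0 := by rw [← hr]; exact r0.ne'
  have hfin : ∀ x, |nrm h x - 1| ≤ κ := by
    intro x
    rw [hn]
    unfold afn tp
    have b1 := hrB _ hc2
    have b2 := (hpB _ hc2)
    have b3 := hc2 x
    have e : r⁻¹ * h x + (p * Real.cos x + q * Real.sin x) - 1 =
        r⁻¹ * (h x - 1) + r⁻¹ * (1 - r) + (p * Real.cos x + q * Real.sin x) := by
      field_simp
      ring
    rw [e]
    have c1 : |r⁻¹ * (h x - 1)| ≤ 2 * (κ / 20) := by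
      rw [abs_mul, abs_of_pos (inv_pos.2 r0)]
      exact mul_le_mul hri b3 (abs_nonneg _) (by norm_num)
    have c2 : |r⁻¹ * (1 - r)| ≤ 2 * (κ / 20) := by
      rw [abs_mul, abs_of_pos (inv_pos.2 r0), abs_sub_comm]
      exact mul_le_mul hri b1 (abs_nonneg _) (by norm_num)
    have c3 : |p * Real.cos x| ≤ 4 * (κ / 20) := by
      rw [abs_mul]
      calc |p| * |Real.cos x| ≤ |p| * 1 := mul_le_mul_of_nonneg_left (Real.abs_cos_le_one x) (abs_nonneg _)
        _ ≤ _ := by linarith [b2.1]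
    have c4 : |q * Real.sin x| ≤ 4 * (κ / 20) := by
      rw [abs_mul]
      calc |q| * |Real.sin x| ≤ |q| * 1 := mul_le_mul_of_nonneg_left (Real.abs_sin_le_one x) (abs_nonneg _)
        _ ≤ _ := by linarith [b2.2]
    have d1 := abs_add_le (r⁻¹ * (h x - 1) + r⁻¹ * (1 - r)) (p * Real.cos x + q * Real.sin x)
    have d2 := abs_add_le (r⁻¹ * (h x - 1)) (r⁻¹ * (1 - r))
    have d3 := abs_add_le (p * Real.cos x) (q * Real.sin x)
    linarith
  obtain ⟨w, hw, he⟩ := H (nrm h) (by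
      rw [hn]
      exact stripTab_afn hβ hM hS hri2 hri (by linarith [(hpB _ hc1).1]) (by linarith [(hpB _ hc1).2]))
    (by rw [hn]; exact Rsn.afn hR (by positivity) p q) (nrm_cf0 hs.continuous hr')
    (nrm_cf1 hs.continuous hr') hfin
  have hb := afn_afn (c := r⁻¹) (p := p) (q := q) (inv_ne_zero r0.ne') h
  rw [← hn, he, inv_inv] at hb
  rw [← hb]
  exact afn_EF hw r0 _ _

end Vale.Agent.P097.H407D
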