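import Vale.Agent.P097.Disc.FDefs

/-! # P097 / H407D : normalisation of tables by similarities -/

set_option linter.all false

namespace Vale.Agent.P097.H407D

open Vale.Agent.P097 Vale.Agent.P097.FD Vale.Agent.P097.TOP Vale.Agent.P097.H407
open Vale.Agent.P097.Reg Filter
open scoped Topology ContDiff Pointwise

/-- trigonometric polynomial of degree one -/
noncomputable def tp (p q : ℝ) (x : ℝ) : ℝ := p * Real.cos x + q * Real.sin x

/-- similar table -/
noncomputable def afn (c p q : ℝ) (h : ℝ → ℝ) (x : ℝ) : ℝ := c * h x + tp p q x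

lemma S_tp (p q a b : ℝ) : S (tp p q) a b =
    p * (Real.sin b - Real.sin a) + q * (Real.cos a - Real.cos b) := by
  unfold S tp
  have h1 := Real.sin_sub_sin b a
  have h2 := Real.cos_sub_cos a b
  rw [h1, h2, add_comm b a]
  have h3 : Real.sin ((a - b) / 2) = - Real.sin ((b - a) / 2) := by
    rw [← Real.sin_neg]; congr 1; ring
  rw [h3]
  ring

lemma L_tp (p q : ℝ) (n : ℕ) (Z : ℕ → ℝ) : L (tp p q) n Z =
    p * (Real.sin (Z (n + 1)) - Real.sin (Z 0)) + q * (Real.cos (Z 0) - Real.cos (Z (n + 1))) := by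
  unfold L
  simp only [S_tp]
  rw [Finset.sum_add_distrib, ← Finset.mul_sum, ← Finset.mul_sum,
    Finset.sum_range_sub (fun j => Real.sin (Z j)) (n + 1),
    Finset.sum_range_sub' (fun j => Real.cos (Z j)) (n + 1)]

lemma L_afn (c p q : ℝ) (h : ℝ → ℝ) (n : ℕ) (Z : ℕ → ℝ) (m : ℕ)
    (hZ : Z (n + 1) = Z 0 + 2 * Real.pi * m) : L (afn c p q h) n Z = c * L h n Z := by
  have h1 : L (afn c p q h) n Z = c * L h n Z + L (tp p q) n Z := by
    unfold L afn S
    rw [Finset.mul_sum, ← Finset.sum_add_distrib]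
    refine Finset.sum_congr rfl fun j _ => ?_
    ring
  have e : Z 0 + 2 * Real.pi * m = Z 0 + m * (2 * Real.pi) := by ring
  rw [h1, L_tp, hZ, e, Real.sin_add_nat_mul_two_pi, Real.cos_add_nat_mul_two_pi]
  ring

lemma mxP_afn {c : ℝ} (hc : 0 ≤ c) (p' q' : ℝ) (h : ℝ → ℝ) (n p : ℕ) (θ : ℝ) :
    PV.mxP (afn c p' q' h) n p θ = c * PV.mxP h n p θ := by
  unfold PV.mxP
  have h1 : (fun y => PV.WP (afn c p' q' h) n p θ y) = fun y => c • PV.WP h n p θ y := by
    ext y
    unfold PV.WP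
    rw [L_afn c p' q' h n _ p (by rw [PV.extP_last, PV.extP_zero]; ring), smul_eq_mul]
  rw [h1, ← smul_eq_mul, ← Real.sSup_smul_of_nonneg hc]
  congr 1
  ext x
  simp [Set.mem_smul_set]

lemma mx_afn {c : ℝ} (hc : 0 ≤ c) (p' q' : ℝ) (h : ℝ → ℝ) (n : ℕ) (θ : ℝ) :
    mx (afn c p' q' h) n θ = c * mx h n θ := by
  unfold mx
  have h1 : (fun y => W (afn c p' q' h) n θ y) = fun y => c • W h n θ y := by
    ext y
    unfold W
    rw [L_afn c p' q' h n _ 1 (by rw [ext_last, ext_zero]; push_cast; ring), smul_eq_mul]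
  rw [h1, ← smul_eq_mul, ← Real.sSup_smul_of_nonneg hc]
  congr 1
  ext x
  simp [Set.mem_smul_set]

theorem Rsn.afn {h : ℝ → ℝ} {η : ℝ} (H : Rsn h η) {c : ℝ} (hc : 0 ≤ c) (p q : ℝ) :
    Rsn (afn c p q h) η := by
  refine ⟨fun n hn θ => ?_, fun n p' h1 h2 h3 θ => ?_⟩
  · rw [mx_afn hc, mx_afn hc, H.cst n hn θ]
  · rw [mxP_afn hc, mxP_afn hc, H.cstP n p' h1 h2 h3 θ]

theorem rsn_const (c η : ℝ) : Rsn (fun _ => c) η := by
  refine ⟨fun n hn θ => ?_, fun n p' h1 h2 h3 θ => ?_⟩
  · unfold mx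
    congr 1
    refine Set.image_congr fun y _ => ?_
    unfold W L S
    refine Finset.sum_congr rfl fun j _ => ?_
    congr 2
    ring
  · unfold PV.mxP
    congr 1
    refine Set.image_congr fun y _ => ?_
    unfold PV.WP L S
    refine Finset.sum_congr rfl fun j _ => ?_
    congr 2
    ring

theorem stripTab_one {β M : ℝ} (hM : 1 ≤ M) : StripTab β M (fun _ => 1) := by
  refine ⟨fun _ => rfl, fun x => ?_, fun _ => 1, differentiableOn_const _, fun z _ => ?_, fun x => ?_⟩
  · have h1 : deriv (fun _ : ℝ => (1 : ℝ)) = fun _ => 0 := by ext x; simp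
    rw [h1]
    simp
    exact hM
  · simpa using hM
  · simp

lemma deriv2_afn {c p q : ℝ} {h : ℝ → ℝ} (hh : ContDiff ℝ ∞ h) (x : ℝ) :
    afn c p q h x + deriv (deriv (afn c p q h)) x = c * (h x + deriv (deriv h) x) := by
  have d1 : ∀ x, HasDerivAt (afn c p q h) (c * deriv h x + tp q (-p) x) x := by
    intro x
    have a := (hh.differentiable (by simp) x).hasDerivAt.const_mul c
    have b := ((Real.hasDerivAt_cos x).const_mul p).add ((Real.hasDerivAt_sin x).const_mul q)
    refine (a.add b).congr_deriv ?_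
    unfold tp; ring
  have d2 : ∀ x, HasDerivAt (fun x => c * deriv h x + tp q (-p) x)
      (c * deriv (deriv h) x + tp (-p) (-q) x) x := by
    intro x
    have h2 : ContDiff ℝ ∞ (deriv h) := hh.iterate_deriv 1
    have a := (h2.differentiable (by simp) x).hasDerivAt.const_mul c
    have b := ((Real.hasDerivAt_cos x).const_mul q).add ((Real.hasDerivAt_sin x).const_mul (-p))
    refine (a.add b).congr_deriv ?_
    unfold tp; ring
  have e1 : deriv (afn c p q h) = fun x => c * deriv h x + tp q (-p) x := funext fun x => (d1 x).deriv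
  rw [e1, (d2 x).deriv]
  unfold afn tp
  ring

lemma pos_of_mul {M r : ℝ} (hM : 1 ≤ M) (h : 1 ≤ M * r) : 0 < r := by
  by_contra hr
  push Not at hr
  nlinarith

theorem stripTab_afn {β M c p q : ℝ} {h : ℝ → ℝ} (hβ : 0 < β) (hM : 1 ≤ M) (S1 : StripTab β M h)
    (hc : 1 / 2 ≤ c) (hc2 : c ≤ 2) (hp : |p| ≤ 1) (hq : |q| ≤ 1) :
    StripTab (min β 1) (10 * M) (afn c p q h) := by
  have hs := S1.contDiff hβ
  obtain ⟨a1, a2, H, a3, a4, a5⟩ := S1
  refine ⟨fun x => ?_, fun x => ?_, fun z => c * H z + (p * Complex.cos z + q * Complex.sin z), ?_,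
    fun z hz => ?_, fun x => ?_⟩
  · unfold afn tp
    rw [a1, Real.cos_add_two_pi, Real.sin_add_two_pi]
  · rw [deriv2_afn hs]
    have := a2 x
    have h0 : 0 < h x + deriv (deriv h) x := pos_of_mul hM this
    nlinarith [mul_pos (by linarith : 0 < M) h0]
  · refine ((a3.const_mul _).mono fun z (hz : |z.im| < min β 1) =>
      (show |z.im| < β from lt_of_lt_of_le hz (min_le_left _ _))).add ?_
    exact (by fun_prop : Differentiable ℂ fun z => (p : ℂ) * Complex.cos z + q * Complex.sin z).differentiableOn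
  · have hz1 : |z.im| < 1 := lt_of_lt_of_le hz (min_le_right _ _)
    have hch : Real.cosh z.im ≤ 2 := by
      rw [← Real.cosh_abs]
      have h1 : Real.cosh |z.im| ≤ Real.cosh 1 := by
        rw [Real.cosh_le_cosh]
        rw [abs_abs, abs_one]; exact hz1.le
      refine h1.trans ?_
      rw [Real.cosh_eq]
      have h2 : Real.exp 1 < 2.7182818286 := Real.exp_one_lt_d9
      have h3 : Real.exp (-1) ≤ 1 := by rw [Real.exp_le_one_iff]; norm_num
      linarith
    have h1 := a4 z (lt_of_lt_of_le hz (min_le_left _ _))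
    have h2 := (norm_cos_le z).trans hch
    have h3 := (norm_sin_le z).trans hch
    calc ‖(c : ℂ) * H z + (p * Complex.cos z + q * Complex.sin z)‖
        ≤ ‖(c : ℂ) * H z‖ + (‖(p : ℂ) * Complex.cos z‖ + ‖(q : ℂ) * Complex.sin z‖) :=
          (norm_add_le _ _).trans (add_le_add le_rfl (norm_add_le _ _))
      _ ≤ 2 * M + (1 * 2 + 1 * 2) := by
          rw [norm_mul, norm_mul, norm_mul, Complex.norm_real, Complex.norm_real, Complex.norm_real,
            Real.norm_eq_abs, Real.norm_eq_abs, Real.norm_eq_abs, abs_of_nonneg (by linarith : 0 ≤ c)]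
          gcongr
      _ ≤ 10 * M := by linarith
  · show (c : ℂ) * H x + (p * Complex.cos x + q * Complex.sin x) = ((afn c p q h x : ℝ) : ℂ)
    unfold afn tp
    rw [a5]
    push_cast
    ring
lemma cf_afn {c p q : ℝ} {h : ℝ → ℝ} (hh : Continuous h) (m : ℤ) :
    R4.cf (afn c p q h) m = c * R4.cf h m + R4.cf (tp p q) m := by
  unfold R4.cf afn
  have e : ∀ x : ℝ, ((c * h x + tp p q x : ℝ) : ℂ) * Complex.exp (-(Complex.I * m * x)) =
      c * ((h x : ℂ) * Complex.exp (-(Complex.I * m * x))) +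
        (tp p q x : ℂ) * Complex.exp (-(Complex.I * m * x)) := by
    intro x; push_cast; ring
  simp only [e]
  rw [intervalIntegral.integral_add, intervalIntegral.integral_const_mul]
  · ring
  · apply Continuous.intervalIntegrable; fun_prop
  · apply Continuous.intervalIntegrable; unfold tp; fun_prop

lemma int_exp (k : ℤ) : ∫ x in (0 : ℝ)..(2 * Real.pi), Complex.exp (Complex.I * k * x) =
    if k = 0 then ((2 * Real.pi : ℝ) : ℂ) else 0 := by
  split_ifs with h
  · subst h
    simp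
  · have hk : Complex.I * k ≠ 0 := mul_ne_zero Complex.I_ne_zero (Int.cast_ne_zero.2 h)
    rw [integral_exp_mul_complex hk]
    have e1 : Complex.I * k * ((2 * Real.pi : ℝ) : ℂ) = k * (2 * Real.pi * Complex.I) := by
      push_cast; ring
    rw [e1, Complex.exp_int_mul_two_pi_mul_I]
    simp

lemma tp_eq (p q x : ℝ) : ((tp p q x : ℝ) : ℂ) = ((p - q * Complex.I) / 2) *
    Complex.exp (Complex.I * x) + ((p + q * Complex.I) / 2) * Complex.exp (-(Complex.I * x)) := by
  unfold tp
  have e1 : Complex.exp (Complex.I * x) = Complex.cos x + Complex.sin x * Complex.I := by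
    rw [mul_comm, Complex.exp_mul_I]
  have e2 : Complex.exp (-(Complex.I * x)) = Complex.cos x - Complex.sin x * Complex.I := by
    have : -(Complex.I * (x : ℂ)) = (-x : ℂ) * Complex.I := by ring
    rw [this, Complex.exp_mul_I, Complex.cos_neg, Complex.sin_neg]
    ring
  rw [e1, e2]
  push_cast
  linear_combination ((q : ℂ) * Complex.sin x) * Complex.I_sq

lemma cf_tp (p q : ℝ) (m : ℤ) : R4.cf (tp p q) m =
    ((p - q * Complex.I) / 2) * (if m = 1 then 1 else 0) +
      ((p + q * Complex.I) / 2) * (if m = -1 then 1 else 0) := by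
  unfold R4.cf
  have e : ∀ x : ℝ, ((tp p q x : ℝ) : ℂ) * Complex.exp (-(Complex.I * m * x)) =
      ((p - q * Complex.I) / 2) * Complex.exp (Complex.I * ((1 - m : ℤ) : ℂ) * x) +
        ((p + q * Complex.I) / 2) * Complex.exp (Complex.I * ((-1 - m : ℤ) : ℂ) * x) := by
    intro x
    rw [tp_eq, add_mul, mul_assoc, mul_assoc ((↑p + ↑q * Complex.I) / 2), ← Complex.exp_add,
      ← Complex.exp_add]
    congr 3 <;> · push_cast; ring
  simp only [e]
  have hpi : ((2 * Real.pi : ℝ) : ℂ) ≠ 0 := by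
    exact_mod_cast Real.two_pi_pos.ne'
  rw [intervalIntegral.integral_add, intervalIntegral.integral_const_mul,
    intervalIntegral.integral_const_mul, int_exp, int_exp]
  · by_cases h1 : m = 1
    · subst h1
      simp
      field_simp
    · by_cases h2 : m = -1
      · subst h2
        simp
        field_simp
      · have h3 : ¬ (1 - m = 0) := by omega
        have h4 : ¬ (-1 - m = 0) := by omega
        simp [h1, h2, h3, h4]
  · apply Continuous.intervalIntegrable; fun_prop
  · apply Continuous.intervalIntegrable; fun_prop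

lemma cf_zero_real (h : ℝ → ℝ) : R4.cf h 0 = ((R4.cf h 0).re : ℂ) := by
  have h1 := R4.cf_conj h 0
  rw [neg_zero] at h1
  exact (Complex.conj_eq_iff_real.1 h1.symm).elim fun r hr => by rw [hr]; simp

/-- normalised table -/
noncomputable def nrm (h : ℝ → ℝ) : ℝ → ℝ :=
  afn ((R4.cf h 0).re)⁻¹ (-(2 * (R4.cf h 1).re / (R4.cf h 0).re))
    (2 * (R4.cf h 1).im / (R4.cf h 0).re) h

lemma nrm_cf0 {h : ℝ → ℝ} (hh : Continuous h) (h0 : (R4.cf h 0).re ≠ 0) : R4.cf (nrm h) 0 = 1 := by
  unfold nrm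
  rw [cf_afn hh, cf_tp, cf_zero_real]
  have : ((R4.cf h 0).re : ℂ) ≠ 0 := by exact_mod_cast h0
  simp [this]

lemma nrm_cf1 {h : ℝ → ℝ} (hh : Continuous h) (h0 : (R4.cf h 0).re ≠ 0) : R4.cf (nrm h) 1 = 0 := by
  unfold nrm
  rw [cf_afn hh, cf_tp]
  have h1 : ((R4.cf h 0).re : ℂ) ≠ 0 := by exact_mod_cast h0
  have h2 : R4.cf h 1 = (R4.cf h 1).re + (R4.cf h 1).im * Complex.I := (Complex.re_add_im _).symm
  simp only [if_true, if_neg (show ¬ ((1 : ℤ) = -1) by decide), mul_one, mul_zero, add_zero]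
  push_cast
  field_simp
  linear_combination h2

lemma nrm_cf {h : ℝ → ℝ} (hh : Continuous h) {m : ℤ} (hm : 2 ≤ m) :
    R4.cf (nrm h) m = ((R4.cf h 0).re : ℂ)⁻¹ * R4.cf h m := by
  unfold nrm
  rw [cf_afn hh, cf_tp, if_neg (by omega), if_neg (by omega)]
  push_cast
  ring

/-- the inverse similarity -/
lemma afn_afn {c p q : ℝ} (hc : c ≠ 0) (h : ℝ → ℝ) : afn c⁻¹ (-(p / c)) (-(q / c)) (afn c p q h) = h := by
  ext x
  unfold afn tp
  field_simp
  ring

/-- similarities preserve ellipses -/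
lemma afn_EF {w : Fin 5 → ℝ} (hw : w ∈ EP) {c : ℝ} (hc : 0 < c) (p q : ℝ) :
    ∃ w' ∈ EP, afn c p q (EF w) = EF w' := by
  refine ⟨![c * w 0 + p, c * w 1 + q, c ^ 2 * w 2, c ^ 2 * w 3, c ^ 2 * w 4], ?_, ?_⟩
  · rw [mem_EP] at hw ⊢
    have e : er ![c * w 0 + p, c * w 1 + q, c ^ 2 * w 2, c ^ 2 * w 3, c ^ 2 * w 4] = c ^ 2 * er w := by
      unfold er
      simp
      rw [← Real.sqrt_sq (by positivity : 0 ≤ c ^ 2), ← Real.sqrt_mul (by positivity)]
      congr 1
      rw [Real.sqrt_sq (by positivity : 0 ≤ c ^ 2)]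
      ring
    rw [e]
    simp
    exact mul_lt_mul_of_pos_left hw (by positivity)
  · ext x
    unfold afn tp
    have hE : 0 ≤ EQ w x := (EQ_pos hw x).le
    have e : EQ ![c * w 0 + p, c * w 1 + q, c ^ 2 * w 2, c ^ 2 * w 3, c ^ 2 * w 4] x =
        c ^ 2 * EQ w x := by
      unfold EQ
      simp
      ring
    unfold EF
    rw [e, Real.sqrt_mul (by positivity), Real.sqrt_sq hc.le]
    simp
    ring

end Vale.Agent.P097.H407D
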