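import Vale.Agent.P097.H407D.Near
import Vale.Agent.P097.H407.Chain
import Vale.Agent.P097.H407.Rat3

/-! # P097 / H407D : the local theorem at all the ellipses, discs included -/

set_option linter.all false

namespace Vale.Agent.P097.H407D

open Vale.Agent.P097 Vale.Agent.P097.FD Vale.Agent.P097.TOP Vale.Agent.P097.H407
open Vale.Agent.P097.Reg Vale.Agent.P097.Disc Filter
open scoped Topology ContDiff

theorem stripTab_afn' {β M c p q : ℝ} {h : ℝ → ℝ} (hβ : 0 < β) (hM : 1 ≤ M)
    (S1 : StripTab β M h) (hc : 0 < c) :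
    StripTab (min β 1) (M * (1 + c + c⁻¹) + 2 * |p| + 2 * |q|) (afn c p q h) := by
  have hs := S1.contDiff hβ
  obtain ⟨a1, a2, H, a3, a4, a5⟩ := S1
  have hM0 : 0 < M := by linarith
  have hci : 0 < c⁻¹ := inv_pos.2 hc
  refine ⟨fun x => ?_, fun x => ?_, fun z => c * H z + (p * Complex.cos z + q * Complex.sin z), ?_,
    fun z hz => ?_, fun x => ?_⟩
  · unfold afn tp
    rw [a1, Real.cos_add_two_pi, Real.sin_add_two_pi]
  · rw [deriv2_afn hs]
    have h1 := a2 x
    have h0 : 0 < h x + deriv (deriv h) x := pos_of_mul hM h1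
    have h2 : M * (h x + deriv (deriv h) x) = (M * c⁻¹) * (c * (h x + deriv (deriv h) x)) := by
      field_simp
    rw [h2] at h1
    refine h1.trans (mul_le_mul_of_nonneg_right ?_ (by positivity))
    have : 0 < M * c := mul_pos hM0 hc
    nlinarith [abs_nonneg p, abs_nonneg q]
  · refine ((a3.const_mul _).mono fun z (hz : |z.im| < min β 1) =>
      (show |z.im| < β from lt_of_lt_of_le hz (min_le_left _ _))).add ?_
    exact (by fun_prop : Differentiable ℂ fun z => (p : ℂ) * Complex.cos z + q * Complex.sin z).differentiableOn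
  · have hz1 : |z.im| < 1 := lt_of_lt_of_le hz (min_le_right _ _)
    have hch : Real.cosh z.im ≤ 2 := by
      rw [← Real.cosh_abs]
      have h1 : Real.cosh |z.im| ≤ Real.cosh 1 := by
        rw [Real.cosh_le_cosh]
        rw [abs_abs, abs_one]; exact hz1.le
      refine h1.trans ?_
      rw [Real.cosh_eq]
      have h2 : Real.exp 1 < 2.7182818286 := Real.exp_one_lt_d9
      have h3 : Real.exp (-1) ≤ 1 := by rw [Real.exp_le_one_iff]; norm_num
      linarith
    have h1 := a4 z (lt_of_lt_of_le hz (min_le_left _ _))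
    have h2 := (norm_cos_le z).trans hch
    have h3 := (norm_sin_le z).trans hch
    calc ‖(c : ℂ) * H z + (p * Complex.cos z + q * Complex.sin z)‖
        ≤ ‖(c : ℂ) * H z‖ + (‖(p : ℂ) * Complex.cos z‖ + ‖(q : ℂ) * Complex.sin z‖) :=
          (norm_add_le _ _).trans (add_le_add le_rfl (norm_add_le _ _))
      _ ≤ c * M + (|p| * 2 + |q| * 2) := by
          rw [norm_mul, norm_mul, norm_mul, Complex.norm_real, Complex.norm_real, Complex.norm_real,
            Real.norm_eq_abs, Real.norm_eq_abs, Real.norm_eq_abs, abs_of_nonneg hc.le]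
          gcongr
      _ ≤ _ := by nlinarith [mul_pos hM0 hci]
  · show (c : ℂ) * H x + (p * Complex.cos x + q * Complex.sin x) = ((afn c p q h x : ℝ) : ℂ)
    unfold afn tp
    rw [a5]
    push_cast
    ring

/-- the local theorem in a class with a uniform strip, at all the ellipses -/
theorem open_all (I : Inputs) {v0 : Fin 5 → ℝ} (hv0 : v0 ∈ EP) {η β M : ℝ} (hη : 0 < η)
    (hβ : 0 < β) (hM : 1 ≤ M) : ∃ κ : ℝ, 0 < κ ∧ ∀ h : ℝ → ℝ,
      StripTab β M h → Rsn h η → (∀ x, |h x - EF v0 x| < κ) → ∃ w ∈ EP, h = EF w := by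
  by_cases hnc : v0 3 ≠ 0 ∨ v0 4 ≠ 0
  · exact open_r stLIN hv0 hnc hη hβ hM
  · push Not at hnc
    obtain ⟨h3, h4⟩ := hnc
    have hR2 : 0 < v0 2 := by
      rw [mem_EP] at hv0
      exact lt_of_le_of_lt (er_nonneg _) hv0
    obtain ⟨R, hR⟩ : ∃ R, R = √(v0 2) := ⟨_, rfl⟩
    have hR0 : 0 < R := by rw [hR]; exact Real.sqrt_pos.2 hR2
    have hef : ∀ x, EF v0 x = tp (v0 0) (v0 1) x + R := by
      intro x
      unfold EF EQ tp
      rw [h3, h4, hR]
      simp
    have hRi : 0 < R⁻¹ := inv_pos.2 hR0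
    obtain ⟨M', hM'⟩ : ∃ M', M' = M * (1 + R⁻¹ + R⁻¹⁻¹) + 2 * |-(v0 0 / R)| + 2 * |-(v0 1 / R)| :=
      ⟨_, rfl⟩
    have hM'1 : 1 ≤ M' := by
      have h5 : 0 < R⁻¹⁻¹ := inv_pos.2 hRi
      have h6 : 0 < M := by linarith
      rw [hM']
      nlinarith [mul_pos h6 hRi, mul_pos h6 h5, abs_nonneg (-(v0 0 / R)), abs_nonneg (-(v0 1 / R))]
    obtain ⟨κ, hκ, H⟩ := disc_near I hη (lt_min hβ one_pos) hM'1
    refine ⟨κ * R, by positivity, fun h hS hRs hcl => ?_⟩
    obtain ⟨w, hw, he⟩ := H (afn R⁻¹ (-(v0 0 / R)) (-(v0 1 / R)) h)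
      (by rw [hM']; exact stripTab_afn' hβ hM hS hRi) (Rsn.afn hRs hRi.le _ _) (fun x => by
        have h5 := hcl x
        rw [hef] at h5
        have e : afn R⁻¹ (-(v0 0 / R)) (-(v0 1 / R)) h x - 1 =
            R⁻¹ * (h x - (tp (v0 0) (v0 1) x + R)) := by
          unfold afn tp
          field_simp
          ring
        rw [e, abs_mul, abs_of_pos hRi, inv_mul_le_iff₀ hR0]
        linarith)
    have e2 : afn R (v0 0) (v0 1) (afn R⁻¹ (-(v0 0 / R)) (-(v0 1 / R)) h) = h := by
      ext x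
      unfold afn tp
      field_simp
      ring
    rw [← e2, he]
    exact afn_EF hw hR0 _ _

/-- the local theorem: every ellipse has a `C^k` neighbourhood in which all the tables with a
collar of width `η`, or with all the rational invariant curves of rotation number less than `η`,
are ellipses -/
theorem local_Ck_all (I : Inputs) {v : Fin 5 → ℝ} (hv : v ∈ EP)
    {η : ℝ} (hη : 0 < η) : ∃ (k : ℕ) (κ : ℝ), 0 < κ ∧ ∀ h : ℝ → ℝ,
      SmoothTable h → NInt h η → CkClose k κ h (EF v) → ∃ w ∈ EP, h = EF w := by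
  have hsm := smoothTable_EF hv
  have hA : ∀ i : ℕ, ∃ B : ℝ, ∀ x, |iteratedDeriv i (EF v) x| ≤ B := fun i =>
    bdd_periodic (hsm.1.continuous_iteratedDeriv i (by exact_mod_cast le_top)) Real.two_pi_pos
      (iter_per hsm.2.1 i)
  choose B hB using hA
  have hrc : Continuous (fun x => EF v x + deriv (deriv (EF v)) x) := by
    have h2 : Continuous (deriv^[2] (EF v)) := (hsm.1.iterate_deriv 2).continuous
    exact hsm.1.continuous.add h2
  have hrp : ∀ x, (fun x => EF v x + deriv (deriv (EF v)) x) (x + 2 * Real.pi) =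
      (fun x => EF v x + deriv (deriv (EF v)) x) x := by
    intro x
    have h2 := iter_per hsm.2.1 2 x
    rw [iteratedDeriv_eq_iterate] at h2
    have h3 : deriv (deriv (EF v)) (x + 2 * Real.pi) = deriv (deriv (EF v)) x := h2
    simp only [hsm.2.1, h3]
  obtain ⟨c, hc, hcl⟩ := low_periodic hrc Real.two_pi_pos hrp hsm.2.2
  obtain ⟨k, β, M, hβ, hM, HR⟩ := stR_fin_r η (c / 2) (fun i => B i + 1) hη (by positivity)
  obtain ⟨κ, hκ, H⟩ := open_all I hv hη hβ hM
  refine ⟨max k 2, min κ (min 1 (c / 4)), by positivity, fun h hs hcol hcl2 => ?_⟩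
  have h1 : ∀ i ≤ max k 2, ∀ x, |iteratedDeriv i h x - iteratedDeriv i (EF v) x| < 1 := fun i hi x =>
    lt_of_lt_of_le (hcl2 i hi x) ((min_le_right _ _).trans (min_le_left _ _))
  have h4 : ∀ i ≤ max k 2, ∀ x, |iteratedDeriv i h x - iteratedDeriv i (EF v) x| < c / 4 :=
    fun i hi x => lt_of_lt_of_le (hcl2 i hi x) ((min_le_right _ _).trans (min_le_right _ _))
  have h0 : ∀ x, |h x - EF v x| < κ := fun x => by
    have := lt_of_lt_of_le (hcl2 0 (Nat.zero_le _) x) (min_le_left _ _)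
    simpa using this
  have hR := rsn_of_nint hs hη hcol
  refine H h (HR h hs.1 hs.2.1 (fun x => ?_) (fun i hi x => ?_) hR.cst) hR h0
  · have a0 := h4 0 (Nat.zero_le _) x
    have a2 := h4 2 (le_max_right _ _) x
    rw [iteratedDeriv_zero, iteratedDeriv_zero] at a0
    have e2 : iteratedDeriv 2 h = deriv (deriv h) := by rw [iteratedDeriv_eq_iterate]; rfl
    have e2' : iteratedDeriv 2 (EF v) = deriv (deriv (EF v)) := by
      rw [iteratedDeriv_eq_iterate]; rfl
    rw [e2, e2'] at a2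
    have := hcl x
    have b0 := (abs_lt.1 a0).1
    have b2 := (abs_lt.1 a2).1
    linarith
  · have a1 := h1 i (hi.trans (le_max_left _ _)) x
    have a2 := hB i x
    have a3 : |iteratedDeriv i h x| ≤ |iteratedDeriv i h x - iteratedDeriv i (EF v) x| +
        |iteratedDeriv i (EF v) x| := by
      have := abs_add_le (iteratedDeriv i h x - iteratedDeriv i (EF v) x) (iteratedDeriv i (EF v) x)
      rwa [sub_add_cancel] at this
    linarith

/-- neighbourhoods of an ellipse in a `C^∞`-continuous family -/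
theorem nhds_all (I : Inputs) {X : Type*} {l : Filter X} {H : X → ℝ → ℝ} {e : ℝ → ℝ}
    (he : ∃ w ∈ EP, e = EF w) {η : ℝ} (hη : 0 < η)
    (hc : ∀ i : ℕ, TendstoUniformly (fun x => iteratedDeriv i (H x)) (iteratedDeriv i e) l) :
    ∀ᶠ x in l, SmoothTable (H x) → NInt (H x) η → ∃ w ∈ EP, H x = EF w := by
  obtain ⟨w, hw, rfl⟩ := he
  obtain ⟨k, κ, hκ, hk⟩ := local_Ck_all I hw hη
  have h1 : ∀ᶠ x in l, ∀ i ∈ Finset.range (k + 1), ∀ s,
      |iteratedDeriv i (H x) s - iteratedDeriv i (EF w) s| < κ := by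
    rw [Filter.eventually_all_finset]
    intro i _
    have h2 := Metric.tendstoUniformly_iff.1 (hc i) κ hκ
    filter_upwards [h2] with x hx s
    have := hx s
    rwa [dist_comm, Real.dist_eq] at this
  filter_upwards [h1] with x hx hs hcol
  exact hk (H x) hs hcol fun i hi s => hx i (Finset.mem_range.2 (by omega)) s

/-- connected families of tables, locally uniformly integrable near the boundary -/
theorem connected_all (I : Inputs) {X : Type*} [TopologicalSpace X] [PreconnectedSpace X]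
    (H : X → ℝ → ℝ) (hT : ∀ x, SmoothTable (H x))
    (hη : ∀ x0, ∃ η : ℝ, 0 < η ∧ ∀ᶠ x in 𝓝 x0, NInt (H x) η)
    (hc : ∀ (i : ℕ) (x0 : X),
      TendstoUniformly (fun x => iteratedDeriv i (H x)) (iteratedDeriv i (H x0)) (𝓝 x0))
    (x0 : X) (he : ∃ w ∈ EP, H x0 = EF w) :
    ∀ x, ∃ w ∈ EP, H x = EF w := by
  have hcont : ∀ s, Continuous fun x => H x s := fun s => by
    rw [continuous_iff_continuousAt]
    intro x
    have := (hc 0 x).tendsto_at s
    simpa [ContinuousAt] using this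
  have hcl : IsClosed {x | ∃ w ∈ EP, H x = EF w} := by
    have e : {x | ∃ w ∈ EP, H x = EF w} = ⋂ s : ℝ, {x | pS (H x) s ^ 2 - EQ (par (H x)) s = 0} := by
      ext x
      simp only [Set.mem_setOf_eq, Set.mem_iInter]
      rw [ell_iff (hT x)]
      exact forall_congr' fun s => sub_eq_zero.symm
    rw [e]
    exact isClosed_iInter fun s => isClosed_eq (continuous_idt hcont s) continuous_const
  have hop : IsOpen {x | ∃ w ∈ EP, H x = EF w} := by
    rw [isOpen_iff_mem_nhds]
    intro x hx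
    obtain ⟨η, hη0, hN⟩ := hη x
    have := nhds_all I (H := H) hx hη0 (fun i => hc i x)
    filter_upwards [this, hN] with y hy hN' using hy (hT y) hN'
  have huniv := IsClopen.eq_univ ⟨hcl, hop⟩ ⟨x0, he⟩
  intro x
  have : x ∈ {x | ∃ w ∈ EP, H x = EF w} := by rw [huniv]; trivial
  exact this

/-- real-analytic families of tables through an ellipse -/
theorem analytic_family_all (Inp : Inputs) {I : Set ℝ} (hI : IsPreconnected I) (H : ℝ → ℝ → ℝ)
    (hT : ∀ t ∈ I, SmoothTable (H t)) (ha : ∀ s, AnalyticOnNhd ℝ (fun t => H t s) I)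
    {t0 : ℝ} (ht0 : t0 ∈ I) (he : ∃ w ∈ EP, H t0 = EF w)
    (hc : ∀ i : ℕ,
      TendstoUniformly (fun t => iteratedDeriv i (H t)) (iteratedDeriv i (H t0)) (𝓝[I] t0))
    {η : ℝ} (hη : 0 < η) (hcol : ∃ᶠ t in 𝓝[I \ {t0}] t0, NInt (H t) η) :
    ∀ t ∈ I, ∃ w ∈ EP, H t = EF w := by
  have h1 : ∃ᶠ t in 𝓝[I \ {t0}] t0, Idt (H t) := by
    have h2 := nhds_all Inp (l := 𝓝[I] t0) (H := H) he hη hc
    have h3 : ∀ᶠ t in 𝓝[I \ {t0}] t0, SmoothTable (H t) → NInt (H t) η → ∃ w ∈ EP, H t = EF w :=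
      h2.filter_mono (nhdsWithin_mono _ Set.diff_subset)
    have h4 : ∀ᶠ t in 𝓝[I \ {t0}] t0, t ∈ I := by
      filter_upwards [self_mem_nhdsWithin] with t ht using ht.1
    refine (hcol.and_eventually (h3.and h4)).mono ?_
    rintro t ⟨a, b, c⟩
    exact (ell_iff (hT t c)).1 (b (hT t c) a)
  have h2 : ∀ s, Set.EqOn (fun t => pS (H t) s ^ 2 - EQ (par (H t)) s) 0 I := by
    intro s
    have han : AnalyticOnNhd ℝ (fun t => pS (H t) s ^ 2 - EQ (par (H t)) s) I := by
      simp only [EQ_par]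
      unfold pC pB pA pS pb pa
      intro t ht
      have a := fun s => ha s t ht
      have a1 := a s
      have a2 := a 0
      have a3 := a Real.pi
      have a4 := a (Real.pi / 2)
      have a5 := a (3 * (Real.pi / 2))
      have a6 := a (Real.pi / 4)
      fun_prop
    apply han.eqOn_zero_of_preconnected_of_frequently_eq_zero hI ht0
    refine (h1.filter_mono (nhdsWithin_mono _ ?_)).mono fun t ht => ?_
    · intro t ht
      exact ht.2
    · exact sub_eq_zero.2 (ht s)
  intro t ht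
  rw [ell_iff (hT t ht)]
  intro s
  exact sub_eq_zero.1 (h2 s ht)

end Vale.Agent.P097.H407D
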