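import Vale.Agent.P097.H407D.Core

/-! # P097 / H407D : tables near a disc, the relative step -/

set_option linter.all false

namespace Vale.Agent.P097.H407D

open Vale.Agent.P097 Vale.Agent.P097.FD Vale.Agent.P097.TOP Vale.Agent.P097.H407
open Vale.Agent.P097.Reg Vale.Agent.P097.Disc Filter
open scoped Topology ContDiff

/-- solution of a triangular system -/
noncomputable def Gs (u : ℕ → ℕ → ℂ) (v : ℕ → ℂ) (i : ℕ) : ℂ :=
  v i - ∑ j : Fin i, Gs u v j * u i j
termination_by i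
decreasing_by exact j.2

lemma Gs_eq (u : ℕ → ℕ → ℂ) (v : ℕ → ℂ) (hu : ∀ i, u i i = 1) (i : ℕ) :
    v i = ∑ j ∈ Finset.range (i + 1), Gs u v j * u i j := by
  rw [Finset.sum_range_succ, hu, mul_one]
  conv_rhs => rw [show Gs u v i = v i - ∑ j : Fin i, Gs u v j * u i j by rw [Gs]]
  rw [Fin.sum_univ_eq_sum_range (fun j => Gs u v j * u i j) i]
  ring

lemma coeff_pow_self {c : ℕ → ℂ} (hc0 : c 0 = 1) (i : ℕ) :
    PowerSeries.coeff i ((PowerSeries.X * (PowerSeries.mk c)⁻¹) ^ i) = 1 := by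
  rw [mul_pow]
  have h1 := PowerSeries.coeff_X_pow_mul ((PowerSeries.mk c)⁻¹ ^ i) i 0
  rw [zero_add] at h1
  rw [h1, PowerSeries.coeff_zero_eq_constantCoeff_apply, map_pow, PowerSeries.constantCoeff_inv,
    ← PowerSeries.coeff_zero_eq_constantCoeff_apply, PowerSeries.coeff_mk, hc0, inv_one, one_pow]

lemma exists_isG {c : ℕ → ℂ} (g : ℕ → ℂ) (hc0 : c 0 = 1) : ∃ G : ℕ → ℂ, IsG c g G :=
  ⟨Gs (fun i j => PowerSeries.coeff i ((PowerSeries.X * (PowerSeries.mk c)⁻¹) ^ j))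
    (fun i => PowerSeries.coeff i (PowerSeries.mk g * PowerSeries.mk c)),
    fun i => Gs_eq (fun i j => PowerSeries.coeff i ((PowerSeries.X * (PowerSeries.mk c)⁻¹) ^ j))
      (fun i => PowerSeries.coeff i (PowerSeries.mk g * PowerSeries.mk c))
      (fun i => coeff_pow_self hc0 i) i⟩

/-- `g = 0` if the first coefficients vanish and `G` is geometric -/
lemma eq_zero_of_isG {c g G : ℕ → ℂ} (hc0 : c 0 = 1) (hG : IsG c g G) (g0 : g 0 = 0)
    (g1 : g 1 = 0) (g2 : g 2 = 0) {b α β : ℂ}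
    (h : ∀ i, G (2 * i + 1) = α * b ^ i ∧ G (2 * i + 2) = β * b ^ i) : ∀ k, g k = 0 := by
  have e0 : G 0 = 0 := by
    have := hG 0
    rw [zero_add, Finset.sum_range_one, coeff_pow_self hc0 0, mul_one] at this
    rw [← this, PowerSeries.coeff_mul]
    simp [g0]
  have e1 : G 1 = 0 := by
    have := hG 1
    rw [Finset.sum_range_succ, Finset.sum_range_one, coeff_pow_self hc0 1, e0, zero_mul, zero_add,
      mul_one] at this
    rw [← this, PowerSeries.coeff_mul, Finset.Nat.sum_antidiagonal_eq_sum_range_succ_mk]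
    simp [Finset.sum_range_succ, g0, g1]
  have e2 : G 2 = 0 := by
    have := hG 2
    rw [Finset.sum_range_succ, Finset.sum_range_succ, Finset.sum_range_one, coeff_pow_self hc0 2,
      e0, e1, zero_mul, zero_mul, zero_add, zero_add, mul_one] at this
    rw [← this, PowerSeries.coeff_mul, Finset.Nat.sum_antidiagonal_eq_sum_range_succ_mk]
    simp [Finset.sum_range_succ, g0, g1, g2]
  have hα : α = 0 := by
    have := (h 0).1
    simpa [e1] using this.symm
  have hβ : β = 0 := by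
    have := (h 0).2
    simpa [e2] using this.symm
  have hGz : ∀ i, G i = 0 := by
    intro i
    rcases Nat.even_or_odd' i with ⟨j, hj | hj⟩
    · rcases Nat.eq_zero_or_pos j with h0 | h0
      · rw [hj, h0, mul_zero]; exact e0
      · have := (h (j - 1)).2
        rw [hj, show 2 * j = 2 * (j - 1) + 2 by omega, this, hβ, zero_mul]
    · rw [hj, (h j).1, hα, zero_mul]
  have hprod : PowerSeries.mk g * PowerSeries.mk c = 0 := by
    ext i
    rw [hG i, map_zero]
    exact Finset.sum_eq_zero fun j _ => by rw [hGz, zero_mul]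
  have hcne : PowerSeries.mk c ≠ 0 := by
    intro h0
    have := congrArg (PowerSeries.coeff 0) h0
    rw [PowerSeries.coeff_mk, hc0, map_zero] at this
    exact one_ne_zero this
  have hg := (mul_eq_zero.1 hprod).resolve_right hcne
  intro k
  have := congrArg (PowerSeries.coeff k) hg
  rwa [PowerSeries.coeff_mk, map_zero] at this

/-- the relative step -/
theorem rel_step (hR : D1R) (hD4 : D4) {η β M : ℝ} (hη : 0 < η) (hη1 : η ≤ 1) (hβ : 0 < β)
    (hM : 1 ≤ M) : ∃ N1 : ℕ, ∀ N, N1 ≤ N → ∀ (h e : ℕ → ℝ → ℝ) (δ μ : ℕ → ℝ) (c : ℕ → ℂ) (b : ℂ),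
      GS η β M N h e δ μ → Tendsto μ atTop (𝓝 0) → (∀ m, R4.cf (h m) 2 = R4.cf (e m) 2) →
      (∀ m, ∃ k : ℕ, 3 ≤ k ∧ k ≤ N ∧ ‖R4.cf (h m) k - R4.cf (e m) k‖ = μ m * δ m ^ k) →
      c 0 = 1 → c 1 = 0 → b ≠ 0 →
      (PowerSeries.mk c) ^ 2 = 1 + PowerSeries.C b * PowerSeries.X ^ 2 →
      (∀ k : ℕ, Tendsto (fun m => R4.cf (e m) k / (δ m : ℂ) ^ k) atTop (𝓝 (c k))) → False := by
  obtain ⟨NR, hNR⟩ := hR η β M hη hβ hM
  refine ⟨NR, fun N hN h e δ μ c b G hμ h2 hex hc0 hc1 hb hc hlim => ?_⟩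
  obtain ⟨hbd, -⟩ := hNR h e δ μ (gs_mono G hN) hμ
  have hδp := G.dp
  have hμp := G.mp
  have h0 : ∀ m, R4.cf (h m) 0 = R4.cf (e m) 0 := fun m => by rw [G.b0, G.e0]
  have h1 : ∀ m, R4.cf (h m) 1 = R4.cf (e m) 1 := fun m => by rw [G.b1, G.e1]
  obtain ⟨g, φ, hφ, hg⟩ := diag
    (fun m k => (R4.cf (h m) k - R4.cf (e m) k) / ((μ m : ℂ) * (δ m : ℂ) ^ k)) (fun k => by
      rcases Nat.lt_or_ge k 2 with h3 | h3
      · refine ⟨0, Eventually.of_forall fun m => ?_⟩
        interval_cases k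
        · simp [h0 m]
        · simp [h1 m]
      · obtain ⟨C, hC⟩ := hbd k h3
        refine ⟨C, hC.mono fun m hm => ?_⟩
        rw [norm_div, norm_mul, norm_pow, Complex.norm_real, Complex.norm_real,
          Real.norm_of_nonneg (hδp m).le, Real.norm_of_nonneg (hμp m).le,
          div_le_iff₀ (mul_pos (hμp m) (pow_pos (hδp m) _)), ← mul_assoc]
        exact hm)
  have hφt := hφ.tendsto_atTop
  have gz : ∀ k : ℕ, (∀ m, R4.cf (h m) k = R4.cf (e m) k) → g k = 0 := by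
    intro k hk
    refine tendsto_nhds_unique (hg k) ?_
    have : (fun m => (R4.cf (h (φ m)) k - R4.cf (e (φ m)) k) /
        ((μ (φ m) : ℂ) * (δ (φ m) : ℂ) ^ k)) = fun _ => 0 := by
      ext m; rw [hk, sub_self, zero_div]
    rw [this]
    exact tendsto_const_nhds
  have g0 : g 0 = 0 := gz 0 (by simpa using h0)
  have g1 : g 1 = 0 := gz 1 (by simpa using h1)
  have g2 : g 2 = 0 := gz 2 (by simpa using h2)
  obtain ⟨Gc, hGc⟩ := exists_isG g hc0
  have hrel := (hNR _ _ _ _ (gs_comp (gs_mono G hN) hφt) (hμ.comp hφt)).2 c g b hc0 hc1 hc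
    (fun k => (hlim k).comp hφt) hg
  have hpi := Real.pi_pos
  obtain ⟨α, β', hαβ⟩ := hD4 (η / Real.pi) b Gc (by positivity)
    (by rw [div_le_iff₀ hpi]; linarith [Real.pi_gt_three]) hb (fun m p hp hlt => by
      rcases Nat.eq_zero_or_pos m with hm0 | hm0
      · subst hm0; simp
      obtain ⟨n', rfl⟩ : ∃ n', m = n' + 1 := ⟨m - 1, by omega⟩
      have hn0 : (0 : ℝ) < ((n' + 1 : ℕ) : ℝ) := by positivity
      have hlt2 : (p : ℝ) / ((n' + 1 : ℕ) : ℝ) < 1 / 2 := by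
        refine lt_of_lt_of_le hlt ?_
        rw [div_le_iff₀ hpi]; linarith [Real.pi_gt_three]
      have h2p : 2 * p < n' + 1 := by
        rw [div_lt_iff₀ hn0] at hlt2
        have : (2 : ℝ) * p < ((n' + 1 : ℕ) : ℝ) := by linarith
        exact_mod_cast this
      refine hrel n' p hp h2p ?_ Gc hGc
      unfold aa
      rw [lt_div_iff₀ hpi] at hlt
      have e : Real.pi * p / ((n' : ℝ) + 1) = (p : ℝ) / ((n' + 1 : ℕ) : ℝ) * Real.pi := by
        push_cast; ring
      rw [e]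
      exact hlt)
  have hgz := eq_zero_of_isG hc0 hGc g0 g1 g2 hαβ
  have h4 : ∀ᶠ m in atTop, ∀ k ∈ Finset.Icc 3 N,
      ‖(R4.cf (h (φ m)) k - R4.cf (e (φ m)) k) / ((μ (φ m) : ℂ) * (δ (φ m) : ℂ) ^ k)‖ < 1 := by
    rw [eventually_all_finset]
    intro k hk
    have h5 := (hg k).norm
    rw [hgz k, norm_zero] at h5
    exact h5.eventually (gt_mem_nhds one_pos)
  obtain ⟨m, hm⟩ := h4.exists
  obtain ⟨k, hk1, hk2, hk3⟩ := hex (φ m)
  have h5 := hm k (by rw [Finset.mem_Icc]; exact ⟨hk1, hk2⟩)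
  rw [norm_div, norm_mul, norm_pow, Complex.norm_real, Complex.norm_real,
    Real.norm_of_nonneg (hδp _).le, Real.norm_of_nonneg (hμp _).le, hk3,
    div_self (mul_pos (hμp _) (pow_pos (hδp _) _)).ne'] at h5
  exact lt_irrefl _ h5

end Vale.Agent.P097.H407D
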